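import Vale.Agent.Lib.P254U.FS.Closure
import Vale.Agent.Lib.P254U.Aff

/-!
P254U/FS/AffSIC: affine images, segments.

`sic_affine`: `isoConst_affine`; the affine image of a simplex is a simplex.
`sic_one`: a convex body in `ℝ^1` is the convex hull of two distinct points.
-/

open MeasureTheory Set

namespace Vale.Agent.P254U

variable {n : ℕ}

theorem IsSimplex.affine {K : Set (Fin n → ℝ)} (h : IsSimplex K)
    (T : (Fin n → ℝ) ≃ᵃ[ℝ] (Fin n → ℝ)) : IsSimplex (T '' K) := by
  obtain ⟨v, hv, rfl⟩ := h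
  refine ⟨fun i => T (v i), hv.map' (T : (Fin n → ℝ) →ᵃ[ℝ] (Fin n → ℝ)) T.injective, ?_⟩
  have h1 := AffineMap.image_convexHull (T : (Fin n → ℝ) →ᵃ[ℝ] (Fin n → ℝ)) (range v)
  have h2 : range (fun i => T (v i)) = T '' range v := range_comp T v
  rw [h2]
  exact h1

theorem sic_affine {K : Set (Fin n → ℝ)} (hK : IsCompact K) (h : SIC K)
    (T : (Fin n → ℝ) ≃ᵃ[ℝ] (Fin n → ℝ)) : SIC (T '' K) := by
  intro v hv
  rw [isoConst_affine hK T]
  exact ⟨(h v hv).1, fun e => ((h v hv).2 e).affine T⟩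

theorem sic_one {K : Set (Fin 1 → ℝ)} (hK : ConvBody 1 K) : IsSimplex K := by
  have hne : K.Nonempty := hK.interior_nonempty.mono interior_subset
  have hc : ContinuousOn (fun x : Fin 1 → ℝ => x 0) K := (continuous_apply 0).continuousOn
  obtain ⟨a, haK, ha⟩ := hK.compact.exists_isMinOn hne hc
  obtain ⟨b, hbK, hb⟩ := hK.compact.exists_isMaxOn hne hc
  have ha' : ∀ x ∈ K, a 0 ≤ x 0 := fun x hx => ha hx
  have hb' : ∀ x ∈ K, x 0 ≤ b 0 := fun x hx => hb hx
  have hab : a 0 < b 0 := by
    by_contra hcon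
    push Not at hcon
    have hsub : K ⊆ {a} := by
      intro x hx
      rw [mem_singleton_iff]
      funext i
      rw [Subsingleton.elim i 0]
      exact le_antisymm ((hb' x hx).trans hcon) (ha' x hx)
    obtain ⟨x, hx⟩ := hK.interior_nonempty
    have hx2 : x ∈ interior ({a} : Set (Fin 1 → ℝ)) := interior_mono hsub hx
    have : Filter.NeBot (nhdsWithin a {a}ᶜ) := Module.punctured_nhds_neBot ℝ (Fin 1 → ℝ) a
    rw [interior_singleton] at hx2
    exact hx2
  have hne2 : a ≠ b := fun e => by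
    rw [e] at hab
    exact lt_irrefl _ hab
  refine ⟨![a, b], affineIndependent_of_ne ℝ hne2, ?_⟩
  have hr : range ![a, b] = {a, b} := by
    ext x
    simp only [mem_range, Fin.exists_fin_two, Matrix.cons_val_zero, Matrix.cons_val_one,
      mem_insert_iff, mem_singleton_iff, eq_comm]
  rw [hr, convexHull_pair]
  refine Subset.antisymm ?_ (hK.convex.segment_subset haK hbK)
  intro x hx
  have h1 := ha' x hx
  have h2 := hb' x hx
  have hd : 0 < b 0 - a 0 := by linarith
  refine ⟨1 - (x 0 - a 0) / (b 0 - a 0), (x 0 - a 0) / (b 0 - a 0), ?_, ?_, by ring, ?_⟩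
  · rw [sub_nonneg, div_le_one hd]
    linarith
  · exact div_nonneg (by linarith) hd.le
  · funext i
    rw [Subsingleton.elim i 0]
    simp only [Pi.add_apply, Pi.smul_apply, smul_eq_mul]
    field_simp
    ring

end Vale.Agent.P254U
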