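import Vale.Agent.Lib.P254U.FS.Defs

/-!
P254U/FS/App: `(a, b) ↦ Fin.append a b` preserves Lebesgue measure and is a measurable embedding
(`MeasurableEquiv.sumPiEquivProdPi`, `volume_measurePreserving_sumPiEquivProdPi_symm`,
`MeasurableEquiv.piCongrLeft` with `finSumFinEquiv`, `volume_measurePreserving_piCongrLeft`).
-/

open MeasureTheory Set

namespace Vale.Agent.P254U

variable {m k : ℕ}

private theorem app_parts_aux (z : Fin (m + k) → ℝ) :
    (Fin.append (fun i : Fin m => z (Fin.castAdd k i)) (fun j : Fin k => z (Fin.natAdd m j)) :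
      Fin (m + k) → ℝ) = z := by
  funext i
  refine Fin.addCases (fun i' => ?_) (fun j => ?_) i
  · rw [Fin.append_left]
  · rw [Fin.append_right]

/-- the measurable equivalence -/
private noncomputable def app_equiv (m k : ℕ) :
    ((Fin m → ℝ) × (Fin k → ℝ)) ≃ᵐ (Fin (m + k) → ℝ) :=
  (MeasurableEquiv.sumPiEquivProdPi (fun _ : Fin m ⊕ Fin k => ℝ)).symm.trans
    (MeasurableEquiv.piCongrLeft (fun _ : Fin (m + k) => ℝ) finSumFinEquiv)

private theorem app_equiv_eq (m k : ℕ) : (app_equiv m k : (Fin m → ℝ) × (Fin k → ℝ) →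
    (Fin (m + k) → ℝ)) = fun z => (Fin.append z.1 z.2 : Fin (m + k) → ℝ) := by
  funext z i
  refine Fin.addCases (fun i' => ?_) (fun j => ?_) i
  · rw [Fin.append_left]
    have h : Fin.castAdd k i' = finSumFinEquiv (Sum.inl i' : Fin m ⊕ Fin k) := rfl
    rw [h]
    exact MeasurableEquiv.piCongrLeft_apply_apply (β := fun _ : Fin (m + k) => ℝ)
      finSumFinEquiv _ (Sum.inl i')
  · rw [Fin.append_right]
    have h : Fin.natAdd m j = finSumFinEquiv (Sum.inr j : Fin m ⊕ Fin k) := rfl
    rw [h]
    exact MeasurableEquiv.piCongrLeft_apply_apply (β := fun _ : Fin (m + k) => ℝ)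
      finSumFinEquiv _ (Sum.inr j)

theorem append_mp : MeasurePreserving
    (fun z : (Fin m → ℝ) × (Fin k → ℝ) => (Fin.append z.1 z.2 : Fin (m + k) → ℝ))
    volume volume := by
  have h := (volume_measurePreserving_sumPiEquivProdPi_symm (fun _ : Fin m ⊕ Fin k => ℝ)).trans
    (volume_measurePreserving_piCongrLeft (fun _ : Fin (m + k) => ℝ) finSumFinEquiv)
  have h2 : MeasurePreserving (app_equiv m k) volume volume := h
  rwa [app_equiv_eq] at h2

theorem append_emb : MeasurableEmbedding
    (fun z : (Fin m → ℝ) × (Fin k → ℝ) => (Fin.append z.1 z.2 : Fin (m + k) → ℝ)) := by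
  have h := (app_equiv m k).measurableEmbedding
  rwa [app_equiv_eq] at h

theorem append_continuous : Continuous
    (fun z : (Fin m → ℝ) × (Fin k → ℝ) => (Fin.append z.1 z.2 : Fin (m + k) → ℝ)) := by
  refine continuous_pi fun i => ?_
  refine Fin.addCases (fun i' => ?_) (fun j => ?_) i
  · simp only [Fin.append_left]
    fun_prop
  · simp only [Fin.append_right]
    fun_prop

/-- every vector of `ℝ^(m+k)` is `append` of its two parts -/
theorem append_parts (z : Fin (m + k) → ℝ) :
    (Fin.append (fun i : Fin m => z (Fin.castAdd k i)) (fun j : Fin k => z (Fin.natAdd m j)) :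
      Fin (m + k) → ℝ) = z := by
  exact app_parts_aux z

/-- Fubini for a compact set `E ⊂ ℝ^(m+k)` and a continuous integrand -/
theorem setIntegral_append {E : Set (Fin (m + k) → ℝ)} (hE : IsCompact E)
    {φ : (Fin (m + k) → ℝ) → ℝ} (hφ : Continuous φ) :
    ∫ z in E, φ z = ∫ a : Fin m → ℝ, ∫ b in {b : Fin k → ℝ | (Fin.append a b : Fin (m + k) → ℝ) ∈ E},
      φ (Fin.append a b) := by
  have hEm : MeasurableSet E := hE.isClosed.measurableSet
  have hint : Integrable (E.indicator φ) volume :=
    (integrable_indicator_iff hEm).2 (hφ.continuousOn.integrableOn_compact hE)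
  rw [← integral_indicator hEm, ← append_mp.integral_comp append_emb]
  have hint2 : Integrable (fun z : (Fin m → ℝ) × (Fin k → ℝ) =>
      E.indicator φ (Fin.append z.1 z.2 : Fin (m + k) → ℝ)) volume :=
    (append_mp.integrable_comp_emb append_emb).2 hint
  rw [Measure.volume_eq_prod, integral_prod _ hint2]
  refine integral_congr_ae (Filter.Eventually.of_forall fun a => ?_)
  have hc : Continuous fun b : Fin k → ℝ => (Fin.append a b : Fin (m + k) → ℝ) :=
    append_continuous.comp (Continuous.prodMk_right a)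
  have hm : MeasurableSet {b : Fin k → ℝ | (Fin.append a b : Fin (m + k) → ℝ) ∈ E} :=
    (hE.isClosed.preimage hc).measurableSet
  change ∫ b, E.indicator φ (Fin.append a b : Fin (m + k) → ℝ) =
    ∫ b in {b : Fin k → ℝ | (Fin.append a b : Fin (m + k) → ℝ) ∈ E}, φ (Fin.append a b)
  rw [← integral_indicator hm]
  rfl

end Vale.Agent.P254U
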