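import Mathlib

/-!
P254U/FS/Num: `a_n = n!² / ((n+1)^(n+1) (n+2)^n)` satisfies `a_m a_k < a_(m+k)` for `m, k ≥ 1`.

`r_n = a_(n+1)/a_n = (n+1)^(n+3) / ((n+2)^2 (n+3)^(n+1))` is strictly increasing in `n ≥ 0`
(`r_0 = 1/12`, `r_1 = 1/9`, limit `e^(-2)`), so with `a_0 = 1`:
`a_(m+k) / a_k = r_k ⋯ r_(k+m-1) > r_0 ⋯ r_(m-1) = a_m`.
Increasing: `r_(n+1)/r_n > 1`, i.e. with `N = n+2`:
`N^(N+2) (N+... )` -- for instance `log r_n = (n+3) log (n+1) - 2 log (n+2) - (n+1) log (n+3)` has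
derivative `log((n+1)/(n+3)) + (n+3)/(n+1) - 2/(n+2) - (n+1)/(n+3)`, and with `x = n+2`:
`log ((x-1)/(x+1)) + (x+1)/(x-1) - (x-1)/(x+1) - 2/x = -2 artanh(1/x) + 4x/(x²-1) - 2/x > 0`
since `artanh(1/x) = 1/x + 1/(3x³) + ... ≤ 1/x + 1/(3 x (x²-1))` and
`4x/(x²-1) - 4/x = 4/(x(x²-1))`.  Any other proof is fine.
-/

namespace Vale.Agent.P254U

noncomputable def aseq (n : ℕ) : ℝ :=
  (n.factorial : ℝ) ^ 2 / (((n : ℝ) + 1) ^ (n + 1) * ((n : ℝ) + 2) ^ n)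

theorem Num_bern (y : ℝ) (hy : 0 ≤ y) (N : ℕ) :
    1 + (N : ℝ) * y + (N : ℝ) * ((N : ℝ) - 1) / 2 * y ^ 2 ≤ (1 + y) ^ N := by
  induction N with
  | zero => norm_num
  | succ N ih =>
    have h1 : 0 ≤ (N : ℝ) * ((N : ℝ) - 1) := by
      rcases Nat.eq_zero_or_pos N with h | h
      · subst h; norm_num
      · have : (1 : ℝ) ≤ N := by exact_mod_cast h
        exact mul_nonneg (by linarith) (by linarith)
    have h2 := mul_le_mul_of_nonneg_right ih (show 0 ≤ 1 + y by linarith)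
    have h3 : 0 ≤ (N : ℝ) * ((N : ℝ) - 1) / 2 * y ^ 3 := by positivity
    rw [pow_succ]
    refine le_trans ?_ h2
    push_cast
    nlinarith [h3]

noncomputable def Num_r (n : ℕ) : ℝ :=
  (((n : ℝ) + 1) / ((n : ℝ) + 2)) ^ 2 * (((n : ℝ) + 1) / ((n : ℝ) + 3)) ^ (n + 1)

theorem Num_pos (n : ℕ) : 0 < aseq n := by
  unfold aseq
  have := Nat.factorial_pos n
  positivity

theorem Num_r_pos (n : ℕ) : 0 < Num_r n := by
  unfold Num_r
  positivity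

theorem Num_succ (n : ℕ) : aseq (n + 1) = Num_r n * aseq n := by
  unfold Num_r aseq
  have h1 : (n : ℝ) + 1 ≠ 0 := by positivity
  have h2 : (n : ℝ) + 2 ≠ 0 := by positivity
  have h3 : (n : ℝ) + 3 ≠ 0 := by positivity
  rw [Nat.factorial_succ]
  push_cast
  rw [show (n : ℝ) + 1 + 1 = n + 2 by ring, show (n : ℝ) + 1 + 2 = n + 3 by ring, div_pow, div_pow]
  field_simp
  ring

theorem Num_poly {x : ℝ} (hx : 1 ≤ x) :
    x ^ 3 * (x + 2) ^ 2 * (x + 3) ^ 3 < (x + 1) ^ 5 * (x ^ 3 + 8 * x ^ 2 + 17 * x - 2) := by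
  have h : (x + 1) ^ 5 * (x ^ 3 + 8 * x ^ 2 + 17 * x - 2) - x ^ 3 * (x + 2) ^ 2 * (x + 3) ^ 3 =
      2 * x ^ 5 + 29 * x ^ 4 + 83 * x ^ 3 + 73 * x ^ 2 + 7 * x - 2 := by ring
  have : 0 < x := by linarith
  have h2 : 0 < 2 * x ^ 5 + 29 * x ^ 4 + 83 * x ^ 3 + 73 * x ^ 2 := by positivity
  linarith

theorem Num_r_lt (n : ℕ) : Num_r n < Num_r (n + 1) := by
  unfold Num_r
  have e2 : (((n + 1 : ℕ) : ℝ)) = (n : ℝ) + 1 := by push_cast; ring
  rw [e2]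
  have hx : (1 : ℝ) ≤ (n : ℝ) + 1 := by linarith [Nat.cast_nonneg (α := ℝ) n]
  have hb := Num_bern (2 / (((n : ℝ) + 1) * (((n : ℝ) + 1) + 3))) (by positivity) (n + 1)
  rw [e2] at hb
  rw [show (n : ℝ) + 2 = ((n : ℝ) + 1) + 1 by ring, show (n : ℝ) + 3 = ((n : ℝ) + 1) + 2 by ring]
  generalize (n : ℝ) + 1 = x at hx hb ⊢
  have hx0 : 0 < x := by linarith
  have key : (x / (x + 1)) ^ 2 <
      ((x + 1) / (x + 2)) ^ 2 * ((x + 1) / (x + 3)) * (1 + 2 / (x * (x + 3))) ^ (n + 1) := by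
    have hpos : 0 < ((x + 1) / (x + 2)) ^ 2 * ((x + 1) / (x + 3)) := by positivity
    refine lt_of_lt_of_le ?_ (mul_le_mul_of_nonneg_left hb hpos.le)
    have e3 : ((x + 1) / (x + 2)) ^ 2 * ((x + 1) / (x + 3)) *
        (1 + x * (2 / (x * (x + 3))) + x * (x - 1) / 2 * (2 / (x * (x + 3))) ^ 2) =
        (x + 1) ^ 3 * (x ^ 3 + 8 * x ^ 2 + 17 * x - 2) /
          ((x + 2) ^ 2 * (x + 3) * (x * (x + 3) ^ 2)) := by
      field_simp
      ring
    rw [e3, div_pow, div_lt_div_iff₀ (by positivity) (by positivity)]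
    have := Num_poly hx
    nlinarith [this]
  have e4 : (x + 1) / (x + 3) = x / (x + 2) * (1 + 2 / (x * (x + 3))) := by
    field_simp
    ring
  have hq : 0 < (x / (x + 2)) ^ (n + 1) := by positivity
  calc (x / (x + 1)) ^ 2 * (x / (x + 2)) ^ (n + 1)
      < (((x + 1) / (x + 2)) ^ 2 * ((x + 1) / (x + 3)) * (1 + 2 / (x * (x + 3))) ^ (n + 1)) *
        (x / (x + 2)) ^ (n + 1) := mul_lt_mul_of_pos_right key hq
    _ = ((x + 1) / (x + 2)) ^ 2 * ((x + 1) / (x + 3)) *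
        (x / (x + 2) * (1 + 2 / (x * (x + 3)))) ^ (n + 1) := by rw [mul_pow]; ring
    _ = ((x + 1) / (x + 2)) ^ 2 * ((x + 1) / (x + 3)) ^ (n + 1 + 1) := by
        rw [← e4, pow_succ _ (n + 1)]; ring

theorem Num_r_lt' {m n : ℕ} (h : m < n) : Num_r m < Num_r n :=
  strictMono_nat_of_lt_succ Num_r_lt h

theorem aseq_mul_lt {m k : ℕ} (hm : 1 ≤ m) (hk : 1 ≤ k) : aseq m * aseq k < aseq (m + k) := by
  induction m, hm using Nat.le_induction with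
  | base =>
    have h0 : aseq 0 = 1 := by simp [aseq]
    have h1 : aseq 1 = Num_r 0 * aseq 0 := Num_succ 0
    rw [h1, h0, mul_one, add_comm, Num_succ]
    exact mul_lt_mul_of_pos_right (Num_r_lt' hk) (Num_pos k)
  | succ m hm ih =>
    rw [Num_succ, show m + 1 + k = (m + k) + 1 by ring, Num_succ, mul_assoc]
    calc Num_r m * (aseq m * aseq k) < Num_r m * aseq (m + k) :=
          mul_lt_mul_of_pos_left ih (Num_r_pos m)
      _ < Num_r (m + k) * aseq (m + k) :=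
          mul_lt_mul_of_pos_right (Num_r_lt' (by omega)) (Num_pos _)

end Vale.Agent.P254U
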