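import Vale.Agent.Lib.P254U.FS.Join
import Vale.Agent.Lib.P254U.FS.Num

/-!
P254U/FS/Asym: the inequality of the strong isotropic constant conjecture in all dimensions is
equivalent to the asymptotic bound `1/e`.

`isoConst_eq_rpow`: `det_covM_eq_Rat`.
`aseq_le`: `aseq n ≤ exp (-2 n)`; by induction from `aseq (n+1) ≤ exp (-2) aseq n`, i.e.
`(n+1)^(n+3) e² ≤ (n+2)² (n+3)^(n+1)`: `log ((n+3)/(n+1)) ≥ 2/(n+2)` (`artanh x ≥ x`), so
`(n+1) log ((n+3)/(n+1)) + 2 log ((n+2)/(n+1)) ≥ 2 (n+1)/(n+2) + 2 log (1 + 1/(n+1))`, and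
`log (1 + 1/(n+1)) ≥ 1/(n+2)`.
`aseq_ge`: `n! ≥ (n/e)^n`, `(n+1)^(n+1) ≤ n^(n+1) (1+1/n)^(n+1) ≤ n^(n+1) 2 e`,
`(n+2)^n ≤ n^n e²`.
`rat_le_one_of_liminf`: if `Rat K = R > 1` in dimension `m`, then in every dimension
`d ≥ m` (write `d + 1 = r (m+1) + s`, `0 ≤ s ≤ m`, so `r ≥ (d+1)/(m+1) - 1`) there is a body with
`Rat = R^r`, so with isotropic constant at least `(aseq d)^(1/(2d)) R^(r/(2d))`, which tends to
`e^(-1) R^(1/(2(m+1))) > e^(-1)` as `d → ∞`.
-/

open MeasureTheory Set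

namespace Vale.Agent.P254U

variable {n : ℕ}

theorem isoConst_eq_rpow {K : Set (Fin n → ℝ)} (hK : ConvBody n K) :
    isoConst K = (Rat K * aseq n) ^ (1 / (2 * (n : ℝ))) :=
  RatSum_iso hK

private theorem Asym_r_le (n : ℕ) : Num_r n ≤ Real.exp (-2) := by
  have hx : (0 : ℝ) < (n : ℝ) + 1 := by positivity
  have e1 : Real.log (Num_r n) ≤ -2 := by
    unfold Num_r
    have h1 : (0 : ℝ) < ((n : ℝ) + 1) / ((n : ℝ) + 2) := by positivity
    have h2 : (0 : ℝ) < ((n : ℝ) + 1) / ((n : ℝ) + 3) := by positivity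
    rw [Real.log_mul (pow_pos h1 _).ne' (pow_pos h2 _).ne', Real.log_pow, Real.log_pow]
    have h3 := Real.log_le_sub_one_of_pos h1
    have h4 := Real.le_log_one_add_of_nonneg (x := 2 / ((n : ℝ) + 1)) (by positivity)
    have h5 : 1 + 2 / ((n : ℝ) + 1) = (((n : ℝ) + 1) / ((n : ℝ) + 3))⁻¹ := by
      field_simp
      ring
    rw [h5, Real.log_inv] at h4
    have h6 : 2 * (2 / ((n : ℝ) + 1)) / (2 / ((n : ℝ) + 1) + 2) = 2 / ((n : ℝ) + 2) := by
      field_simp
      ring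
    rw [h6] at h4
    have h7 : ((n : ℝ) + 1) / ((n : ℝ) + 2) - 1 = -(1 / ((n : ℝ) + 2)) := by
      field_simp
      ring
    rw [h7] at h3
    have h8 : ((n : ℝ) + 1) * Real.log (((n : ℝ) + 1) / ((n : ℝ) + 3)) ≤
        ((n : ℝ) + 1) * (-(2 / ((n : ℝ) + 2))) :=
      mul_le_mul_of_nonneg_left (by linarith) hx.le
    have h9 : 2 * (-(1 / ((n : ℝ) + 2))) + ((n : ℝ) + 1) * (-(2 / ((n : ℝ) + 2))) = -2 := by
      field_simp
      ring
    push_cast
    linarith
  rw [← Real.exp_log (Num_r_pos n)]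
  exact Real.exp_le_exp.2 e1

theorem aseq_le (n : ℕ) : aseq n ≤ Real.exp (-(2 * (n : ℝ))) := by
  induction n with
  | zero => simp [aseq]
  | succ n ih =>
    rw [Num_succ]
    calc Num_r n * aseq n ≤ Real.exp (-2) * Real.exp (-(2 * (n : ℝ))) :=
          mul_le_mul (Asym_r_le n) ih (Num_pos n).le (Real.exp_pos _).le
      _ = _ := by
          rw [← Real.exp_add]
          congr 1
          push_cast
          ring

theorem aseq_ge {n : ℕ} (hn : 1 ≤ n) :
    Real.exp (-(2 * (n : ℝ))) / (2 * Real.exp 3 * n) ≤ aseq n := by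
  have hn' : (1 : ℝ) ≤ n := by exact_mod_cast hn
  have hn0 : (0 : ℝ) < n := by linarith
  have hf0 : (0 : ℝ) < (n.factorial : ℝ) := by exact_mod_cast Nat.factorial_pos n
  -- factorial
  have h1 : (n : ℝ) ^ n * Real.exp (-(n : ℝ)) ≤ (n.factorial : ℝ) := by
    have h := Real.pow_div_factorial_le_exp (n : ℝ) hn0.le n
    rw [div_le_iff₀ hf0] at h
    have h2 : Real.exp (n : ℝ) * Real.exp (-(n : ℝ)) = 1 := by
      rw [← Real.exp_add, add_neg_cancel, Real.exp_zero]
    calc (n : ℝ) ^ n * Real.exp (-(n : ℝ)) ≤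
          (Real.exp (n : ℝ) * (n.factorial : ℝ)) * Real.exp (-(n : ℝ)) :=
          mul_le_mul_of_nonneg_right h (Real.exp_pos _).le
      _ = (Real.exp (n : ℝ) * Real.exp (-(n : ℝ))) * (n.factorial : ℝ) := by ring
      _ = _ := by rw [h2, one_mul]
  have h2 : ((n : ℝ) + 1) ^ (n + 1) ≤ (n : ℝ) ^ (n + 1) * (2 * Real.exp 1) := by
    have e1 : (n : ℝ) + 1 = n * (1 + 1 / n) := by field_simp
    rw [e1, mul_pow]
    apply mul_le_mul_of_nonneg_left _ (by positivity)
    rw [pow_succ, mul_comm]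
    apply mul_le_mul _ _ (by positivity) (by norm_num)
    · have : 1 / (n : ℝ) ≤ 1 := by
        rw [div_le_one hn0]
        exact hn'
      linarith
    · have h3 : 1 + 1 / (n : ℝ) ≤ Real.exp (1 / n) := by
        have := Real.add_one_le_exp (1 / (n : ℝ))
        linarith
      calc (1 + 1 / (n : ℝ)) ^ n ≤ (Real.exp (1 / n)) ^ n :=
            pow_le_pow_left₀ (by positivity) h3 n
        _ = Real.exp 1 := by
            rw [← Real.exp_nat_mul]
            congr 1
            field_simp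
  have h3 : ((n : ℝ) + 2) ^ n ≤ (n : ℝ) ^ n * Real.exp 2 := by
    have e1 : (n : ℝ) + 2 = n * (1 + 2 / n) := by field_simp
    rw [e1, mul_pow]
    apply mul_le_mul_of_nonneg_left _ (by positivity)
    have h3 : 1 + 2 / (n : ℝ) ≤ Real.exp (2 / n) := by
      have := Real.add_one_le_exp (2 / (n : ℝ))
      linarith
    calc (1 + 2 / (n : ℝ)) ^ n ≤ (Real.exp (2 / n)) ^ n :=
          pow_le_pow_left₀ (by positivity) h3 n
      _ = Real.exp 2 := by
          rw [← Real.exp_nat_mul]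
          congr 1
          field_simp
  unfold aseq
  rw [div_le_div_iff₀ (by positivity) (by positivity)]
  have h4 : ((n : ℝ) ^ n * Real.exp (-(n : ℝ))) ^ 2 ≤ (n.factorial : ℝ) ^ 2 :=
    pow_le_pow_left₀ (by positivity) h1 2
  have h5 : ((n : ℝ) + 1) ^ (n + 1) * ((n : ℝ) + 2) ^ n ≤
      ((n : ℝ) ^ (n + 1) * (2 * Real.exp 1)) * ((n : ℝ) ^ n * Real.exp 2) :=
    mul_le_mul h2 h3 (by positivity) (by positivity)
  calc Real.exp (-(2 * (n : ℝ))) * (((n : ℝ) + 1) ^ (n + 1) * ((n : ℝ) + 2) ^ n)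
      ≤ Real.exp (-(2 * (n : ℝ))) *
        (((n : ℝ) ^ (n + 1) * (2 * Real.exp 1)) * ((n : ℝ) ^ n * Real.exp 2)) :=
        mul_le_mul_of_nonneg_left h5 (Real.exp_pos _).le
    _ = ((n : ℝ) ^ n * Real.exp (-(n : ℝ))) ^ 2 * (2 * Real.exp 3 * n) := by
        have e1 : Real.exp (-(2 * (n : ℝ))) = Real.exp (-(n : ℝ)) ^ 2 := by
          rw [← Real.exp_nat_mul]
          congr 1
          push_cast
          ring
        have e2 : Real.exp 3 = Real.exp 1 * Real.exp 2 := by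
          rw [← Real.exp_add]
          norm_num
        rw [e1, e2]
        ring
    _ ≤ _ := mul_le_mul_of_nonneg_right h4 (by positivity)

theorem isoConst_le_exp (hn : 1 ≤ n) {K : Set (Fin n → ℝ)} (hK : ConvBody n K)
    (h : Rat K ≤ 1) : isoConst K ≤ Real.exp (-1) := by
  have hn' : (0 : ℝ) < n := by exact_mod_cast hn
  rw [isoConst_eq_rpow hK]
  have h1 : Rat K * aseq n ≤ Real.exp (-(2 * (n : ℝ))) := by
    calc Rat K * aseq n ≤ 1 * aseq n := mul_le_mul_of_nonneg_right h (Num_pos n).le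
      _ ≤ _ := by rw [one_mul]; exact aseq_le n
  calc (Rat K * aseq n) ^ (1 / (2 * (n : ℝ))) ≤
        (Real.exp (-(2 * (n : ℝ)))) ^ (1 / (2 * (n : ℝ))) :=
        Real.rpow_le_rpow (mul_pos (Rat_pos hK) (Num_pos n)).le h1 (by positivity)
    _ = Real.exp (-1) := by
        rw [← Real.exp_mul]
        congr 1
        field_simp

/-- if for every `ε > 0` there are arbitrarily large dimensions in which all isotropic constants
are at most `1/e + ε`, then `Rat K ≤ 1` for every convex body in every dimension -/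
theorem rat_le_one_of_liminf
    (h : ∀ ε : ℝ, 0 < ε → ∀ N : ℕ, ∃ d : ℕ, N ≤ d ∧ ∀ K : Set (Fin d → ℝ), ConvBody d K →
      isoConst K ≤ Real.exp (-1) + ε)
    (hn : 1 ≤ n) {K : Set (Fin n → ℝ)} (hK : ConvBody n K) : Rat K ≤ 1 := by
  by_contra hcon
  have hR : 1 < Rat K := not_le.1 hcon
  have hlR : 0 < Real.log (Rat K) := Real.log_pos hR
  have hn1 : (0 : ℝ) < (n : ℝ) + 1 := by positivity
  -- the constant `c = log R / (n+1)`, and `ρ = exp (c/4)`
  set c : ℝ := Real.log (Rat K) / ((n : ℝ) + 1) with hc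
  have hc0 : 0 < c := div_pos hlR hn1
  set ε : ℝ := Real.exp (-1) * (Real.exp (c / 4) - 1) with hε
  have hε0 : 0 < ε := by
    apply mul_pos (Real.exp_pos _)
    have := Real.add_one_le_exp (c / 4)
    linarith
  have hlogsmall : ∀ᶠ d : ℕ in Filter.atTop, Real.log (d : ℝ) ≤ c / 4 * d := by
    have h1 := Real.isLittleO_log_id_atTop.def (show (0 : ℝ) < c / 4 by positivity)
    have h2 := tendsto_natCast_atTop_atTop (R := ℝ) |>.eventually h1
    filter_upwards [h2, Filter.eventually_ge_atTop 1] with d hd hd1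
    have hd1' : (1 : ℝ) ≤ d := by exact_mod_cast hd1
    simp only [id] at hd
    rwa [Real.norm_eq_abs, Real.norm_eq_abs, abs_of_nonneg (Real.log_nonneg hd1'),
      abs_of_nonneg (by linarith : (0 : ℝ) ≤ d)] at hd
  obtain ⟨N₀, hN₀⟩ := Filter.eventually_atTop.1 hlogsmall
  obtain ⟨N₁, hN₁⟩ := exists_nat_gt ((c * n + Real.log (2 * Real.exp 3)) / (c / 4))
  obtain ⟨d, hdN, hd⟩ := h ε hε0 (max N₀ (max N₁ (n + 1)))
  have hd0 : N₀ ≤ d := le_trans (le_max_left _ _) hdN
  have hd1 : N₁ ≤ d := le_trans (le_trans (le_max_left _ _) (le_max_right _ _)) hdN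
  have hd2 : n + 1 ≤ d := le_trans (le_trans (le_max_right _ _) (le_max_right _ _)) hdN
  have hdpos : 1 ≤ d := by omega
  have hdr : (1 : ℝ) ≤ d := by exact_mod_cast hdpos
  -- the power
  set r : ℕ := (d + 1) / (n + 1) with hr
  have hr1 : 1 ≤ r := (Nat.one_le_div_iff (by omega)).2 (by omega)
  have hdiv : d + 1 = r * (n + 1) + (d + 1) % (n + 1) := by
    rw [hr, mul_comm]
    exact (Nat.div_add_mod _ _).symm
  obtain ⟨J, hJ, hJR⟩ := exists_power hn hK r ((d + 1) % (n + 1)) hr1 d hdiv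
  have h1 := hd J hJ
  have hJpos : 0 < Rat J * aseq d := mul_pos (Rat_pos hJ) (Num_pos d)
  have e1 : Real.exp (-1) + ε = Real.exp (-1 + c / 4) := by
    rw [Real.exp_add, hε]
    ring
  rw [e1, isoConst_eq_rpow hJ] at h1
  have h2 : Real.log ((Rat J * aseq d) ^ (1 / (2 * (d : ℝ)))) ≤ -1 + c / 4 := by
    rw [Real.log_le_iff_le_exp (Real.rpow_pos_of_pos hJpos _)]
    exact h1
  rw [Real.log_rpow hJpos, Real.log_mul (Rat_pos hJ).ne' (Num_pos d).ne', hJR, Real.log_pow] at h2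
  have h3 : (r : ℝ) * Real.log (Rat K) + Real.log (aseq d) ≤ (-1 + c / 4) * (2 * d) := by
    have h4 := mul_le_mul_of_nonneg_right h2 (show (0 : ℝ) ≤ 2 * d by positivity)
    have e2 : 1 / (2 * (d : ℝ)) * (r * Real.log (Rat K) + Real.log (aseq d)) * (2 * d) =
        r * Real.log (Rat K) + Real.log (aseq d) := by
      field_simp
    rwa [e2] at h4
  have h5 : -(2 * (d : ℝ)) - (Real.log (2 * Real.exp 3) + Real.log d) ≤ Real.log (aseq d) := by
    have h6 := Real.log_le_log (by positivity) (aseq_ge hdpos)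
    rw [Real.log_div (Real.exp_pos _).ne' (by positivity), Real.log_exp,
      Real.log_mul (by positivity) (by positivity)] at h6
    exact h6
  -- `r ≥ (d+1-n)/(n+1)`
  have h7 : ((d : ℝ) - n) * c ≤ (r : ℝ) * Real.log (Rat K) := by
    have h8 : (d : ℝ) + 1 ≤ r * ((n : ℝ) + 1) + n := by
      have h9 : (d + 1) % (n + 1) ≤ n := Nat.lt_succ_iff.1 (Nat.mod_lt _ (by omega))
      have h10 : d + 1 ≤ r * (n + 1) + n := by omega
      exact_mod_cast h10
    have h11 : (d : ℝ) - n ≤ r * ((n : ℝ) + 1) := by linarith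
    have h12 : Real.log (Rat K) = c * ((n : ℝ) + 1) := by
      rw [hc]
      field_simp
    rw [h12]
    have := mul_le_mul_of_nonneg_right h11 hc0.le
    linarith
  have h8 := hN₀ d hd0
  have h9 : (c * n + Real.log (2 * Real.exp 3)) < c / 4 * d := by
    have h10 : (N₁ : ℝ) ≤ d := by exact_mod_cast hd1
    have h11 := lt_of_lt_of_le hN₁ h10
    rw [div_lt_iff₀ (by positivity)] at h11
    linarith
  nlinarith [mul_pos hc0 (by linarith : (0 : ℝ) < d)]

end Vale.Agent.P254U
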