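import Vale.Agent.Lib.P254U.FS.EqCase
import Vale.Agent.Lib.P254U.FS.Num

/-!
P254U/FS/Closure: the strong isotropic constant conjecture is inherited by free sums and products.

`sic_iff`: `isoConst_le_iff`, `isoConst_eq_iff` and the existence of one affinely independent family
(vertices of the standard simplex: `0` and the basis vectors).
`sic_fsum`: by `Rat_fsum` and `0 < Gam ≤ Rat ≤ 1`:
`Rat (fsum) = Rat K * Rat L - (Rat K - Gam K)(Rat L - Gam L) ≤ 1`; equality forces
`Rat K = Rat L = 1` and `Gam K = 1` or `Gam L = 1`; then `K`, `L` are simplices, by `simplex_gam_lt`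
one of them has the vertex `0`, and `fsum_simplex` applies.
`sic_prod`: `Rat (prodSet K L) = Rat K * Rat L * (aseq m * aseq k / aseq (m+k)) < 1` by
`covM_prod`, `vol_prod`, `det_covM_eq_Rat`, `aseq_mul_lt` (determinant of a block diagonal matrix,
`Matrix.det_fromBlocks_zero₂₁`, reindexed by `finSumFinEquiv`).
-/

open MeasureTheory Set

namespace Vale.Agent.P254U

variable {m k n : ℕ}

/-- the inequality of the strong isotropic constant conjecture for the body `K`, with its equality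
case -/
def SIC (K : Set (Fin n → ℝ)) : Prop :=
  ∀ v : Fin (n + 1) → (Fin n → ℝ), AffineIndependent ℝ v →
    isoConst K ≤ isoConst (convexHull ℝ (range v)) ∧
      (isoConst K = isoConst (convexHull ℝ (range v)) → IsSimplex K)

theorem sic_iff (hn : 1 ≤ n) {K : Set (Fin n → ℝ)} (hK : ConvBody n K) :
    SIC K ↔ Rat K ≤ 1 ∧ (Rat K = 1 → IsSimplex K) := by
  constructor
  · intro h
    obtain ⟨b⟩ : Nonempty (AffineBasis (Fin (n + 1)) ℝ (Fin n → ℝ)) :=
      AffineBasis.exists_affineBasis_of_finiteDimensional (by simp)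
    obtain ⟨h1, h2⟩ := h b b.ind
    exact ⟨(isoConst_le_iff hn hK b.ind).1 h1, fun h3 => h2 ((isoConst_eq_iff hn hK b.ind).2 h3)⟩
  · rintro ⟨h1, h2⟩ v hv
    exact ⟨(isoConst_le_iff hn hK hv).2 h1, fun h3 => h2 ((isoConst_eq_iff hn hK hv).1 h3)⟩

theorem sic_simplex (hn : 1 ≤ n) {K : Set (Fin n → ℝ)} (h : IsSimplex K) : SIC K :=
  (sic_iff hn h.convBody).2 ⟨(simplex_rat hn h).le, fun _ => h⟩

/-- a simplex containing the origin with `Gam = 1` has the vertex `0` -/
theorem Closure_vertex (hn : 1 ≤ n) {v : Fin (n + 1) → (Fin n → ℝ)} (hv : AffineIndependent ℝ v)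
    (h0 : (0 : Fin n → ℝ) ∈ convexHull ℝ (range v)) (h1 : Gam (convexHull ℝ (range v)) = 1) :
    ∃ j, v j = 0 := by
  by_contra hne
  have h2 := simplex_gam_lt hn hv h0 (fun j hj => hne ⟨j, hj⟩)
  exact absurd h1 h2.ne

theorem sic_fsum (hm : 1 ≤ m) (hk : 1 ≤ k) {K : Set (Fin m → ℝ)} {L : Set (Fin k → ℝ)}
    (hK : ConvBody m K) (hL : ConvBody k L) (h0 : (0 : Fin m → ℝ) ∈ K)
    (h0' : (0 : Fin k → ℝ) ∈ L) (h1 : SIC K) (h2 : SIC L) : SIC (fsum K L) := by
  obtain ⟨hR1, hE1⟩ := (sic_iff hm hK).1 h1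
  obtain ⟨hR2, hE2⟩ := (sic_iff hk hL).1 h2
  have hp1 := Gam_pos hm hK h0
  have hp2 := Gam_pos hk hL h0'
  have hg1 := Gam_le_Rat hm hK h0
  have hg2 := Gam_le_Rat hk hL h0'
  have hrp1 := Rat_pos hK
  have hrp2 := Rat_pos hL
  have hF := Rat_fsum hm hk hK hL h0 h0'
  have hd : 0 ≤ (Rat K - Gam K) * (Rat L - Gam L) :=
    mul_nonneg (sub_nonneg.2 hg1) (sub_nonneg.2 hg2)
  have hm1 : Rat K * Rat L ≤ 1 := mul_le_one₀ hR1 hrp2.le hR2
  refine (sic_iff (by omega) (fsum_convBody hK hL)).2 ⟨by linarith, fun hE => ?_⟩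
  have hRR : Rat K * Rat L = 1 := by linarith
  have hK1 : Rat K = 1 := by
    refine le_antisymm hR1 ?_
    rw [← hRR]
    exact mul_le_of_le_one_right hrp1.le hR2
  have hL1 : Rat L = 1 := by
    rw [hK1, one_mul] at hRR
    exact hRR
  have hz : (Rat K - Gam K) * (Rat L - Gam L) = 0 := by linarith
  have hKS := hE1 hK1
  have hLS := hE2 hL1
  rcases mul_eq_zero.1 hz with hz1 | hz2
  · obtain ⟨v, hv, hKv⟩ := id hKS
    have hG : Gam (convexHull ℝ (range v)) = 1 := by
      rw [← hKv]; linarith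
    obtain ⟨j, hj⟩ := Closure_vertex hm hv (by rw [← hKv]; exact h0) hG
    exact fsum_simplex hv hKv hj hLS h0'
  · obtain ⟨w, hw, hLw⟩ := id hLS
    have hG : Gam (convexHull ℝ (range w)) = 1 := by
      rw [← hLw]; linarith
    obtain ⟨j, hj⟩ := Closure_vertex hk hw (by rw [← hLw]; exact h0') hG
    exact fsum_simplex' hw hLw hj hKS h0

theorem Closure_det {K : Set (Fin m → ℝ)} {L : Set (Fin k → ℝ)}
    (hK : ConvBody m K) (hL : ConvBody k L) :
    (covM (prodSet K L)).det = (covM K).det * (covM L).det := by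
  have e : (covM (prodSet K L)).submatrix finSumFinEquiv finSumFinEquiv =
      Matrix.fromBlocks (covM K) 0 0 (covM L) := by
    ext i j
    exact covM_prod hK hL i j
  rw [← Matrix.det_fromBlocks_zero₂₁, ← e, Matrix.det_submatrix_equiv_self]

theorem Closure_rat {K : Set (Fin m → ℝ)} {L : Set (Fin k → ℝ)}
    (hK : ConvBody m K) (hL : ConvBody k L) :
    Rat (prodSet K L) * aseq (m + k) = (Rat K * aseq m) * (Rat L * aseq k) := by
  have hP := det_covM_eq_Rat (prod_convBody hK hL)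
  have h1 := det_covM_eq_Rat hK
  have h2 := det_covM_eq_Rat hL
  unfold aseq
  rw [← h1, ← h2, ← hP, Closure_det hK hL, vol_prod hK hL, mul_pow, mul_div_mul_comm]

theorem sic_prod (hm : 1 ≤ m) (hk : 1 ≤ k) {K : Set (Fin m → ℝ)} {L : Set (Fin k → ℝ)}
    (hK : ConvBody m K) (hL : ConvBody k L) (h1 : SIC K) (h2 : SIC L) : SIC (prodSet K L) := by
  obtain ⟨hR1, -⟩ := (sic_iff hm hK).1 h1
  obtain ⟨hR2, -⟩ := (sic_iff hk hL).1 h2
  have hrp1 := Rat_pos hK
  have hrp2 := Rat_pos hL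
  have hlt : Rat (prodSet K L) < 1 := by
    have e := Closure_rat hK hL
    have a1 := Num_pos m
    have a2 := Num_pos k
    have a3 := Num_pos (m + k)
    have a4 := aseq_mul_lt hm hk
    have h3 : (Rat K * aseq m) * (Rat L * aseq k) ≤ aseq m * aseq k :=
      mul_le_mul (mul_le_of_le_one_left a1.le hR1) (mul_le_of_le_one_left a2.le hR2)
        (mul_pos hrp2 a2).le a1.le
    by_contra hge
    have h4 : aseq (m + k) ≤ Rat (prodSet K L) * aseq (m + k) :=
      le_mul_of_one_le_left a3.le (not_lt.1 hge)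
    linarith
  exact (sic_iff (by omega) (prod_convBody hK hL)).2 ⟨hlt.le, fun h => absurd h hlt.ne⟩

end Vale.Agent.P254U
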