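import Vale.Agent.Lib.P254U.Iso

/-!
P254U/FS/Defs: free sums and products of convex bodies, and the normalised isotropic constant.

Write `n` for the dimension, `V` volume, `c` centroid, `C` covariance matrix.
`SM = (n+1)(n+2) C`, `GM = SM + (n+1) c cᵀ = (n+1)(n+2) E[x xᵀ] - (n+1)^2 c cᵀ`,
`Rat = (n+1) det SM / (n! V)^2 = (L_K / L_simplex)^(2n)`, `Gam = det GM / (n! V)^2`.

EXACT FORMULA (checked in exact arithmetic): for `K ⊂ ℝ^m`, `L ⊂ ℝ^k` convex bodies containing `0`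
and `fsum K L = conv (K × 0 ∪ 0 × L)`:
  `Rat (fsum K L) = Rat K * Rat L - (Rat K - Gam K) * (Rat L - Gam L)`,
and `0 < Gam K ≤ Rat K`.  Hence `Rat K, Rat L ≤ 1` implies `Rat (fsum K L) ≤ 1`.
-/

open MeasureTheory Set

namespace Vale.Agent.P254U

variable {m k n : ℕ}

/-- matrix of second moments about the origin -/
noncomputable def mom2 (K : Set (Fin n → ℝ)) : Matrix (Fin n) (Fin n) ℝ :=
  fun i j => (∫ x in K, x i * x j) / (volume K).toReal

noncomputable def SM (K : Set (Fin n → ℝ)) : Matrix (Fin n) (Fin n) ℝ :=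
  fun i j => ((n : ℝ) + 1) * ((n : ℝ) + 2) * covM K i j

noncomputable def GM (K : Set (Fin n → ℝ)) : Matrix (Fin n) (Fin n) ℝ :=
  fun i j => ((n : ℝ) + 1) * ((n : ℝ) + 2) * covM K i j + ((n : ℝ) + 1) * (cen K i * cen K j)

noncomputable def Rat (K : Set (Fin n → ℝ)) : ℝ :=
  ((n : ℝ) + 1) * (SM K).det / ((n.factorial : ℝ) * (volume K).toReal) ^ 2

noncomputable def Gam (K : Set (Fin n → ℝ)) : ℝ :=
  (GM K).det / ((n.factorial : ℝ) * (volume K).toReal) ^ 2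

/-- the convex hull of `K × 0 ∪ 0 × L` in `ℝ^(m+k)` -/
def fsum (K : Set (Fin m → ℝ)) (L : Set (Fin k → ℝ)) : Set (Fin (m + k) → ℝ) :=
  convexHull ℝ ((fun a : Fin m → ℝ => (Fin.append a (0 : Fin k → ℝ) : Fin (m + k) → ℝ)) '' K ∪
    (fun b : Fin k → ℝ => (Fin.append (0 : Fin m → ℝ) b : Fin (m + k) → ℝ)) '' L)

/-- the product `K × L` in `ℝ^(m+k)` -/
def prodSet (K : Set (Fin m → ℝ)) (L : Set (Fin k → ℝ)) : Set (Fin (m + k) → ℝ) :=
  {z | (fun i : Fin m => z (Fin.castAdd k i)) ∈ K ∧ (fun j : Fin k => z (Fin.natAdd m j)) ∈ L}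

def IsSimplex (K : Set (Fin n → ℝ)) : Prop :=
  ∃ v : Fin (n + 1) → (Fin n → ℝ), AffineIndependent ℝ v ∧ K = convexHull ℝ (range v)

end Vale.Agent.P254U
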