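import Mathlib

/-!
P254U/FS/Det: a determinant formula (matrix determinant lemma
`Matrix.det_add_replicateCol_mul_replicateRow` or `Matrix.det_one_add_replicateCol_mul_replicateRow`).

`det (G - t a aᵀ) = det G * (1 - t aᵀ G⁻¹ a)` for invertible `G`.  For the block matrix the inverse
is the block matrix of the inverses (`Matrix.fromBlocks_...`, or check that the product is `1`), so
`aᵀ G⁻¹ a = a₁ᵀ G₁⁻¹ a₁ + a₂ᵀ G₂⁻¹ a₂`, and `det G_i * a_iᵀ G_i⁻¹ a_i = (det G_i - det (G_i - t_i a_i a_iᵀ)) / t_i`.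
-/

open Matrix

namespace Vale.Agent.P254U

/-- the rank one update -/
theorem det_sub_vec {ι : Type} [Fintype ι] [DecidableEq ι] (G : Matrix ι ι ℝ) (hG : G.det ≠ 0)
    (a : ι → ℝ) (t : ℝ) :
    (G - t • Matrix.vecMulVec a a).det = G.det * (1 - t * (a ⬝ᵥ (G⁻¹ *ᵥ a))) := by
  have hu : IsUnit G.det := isUnit_iff_ne_zero.2 hG
  have h1 : G - t • Matrix.vecMulVec a a =
      G * (1 + Matrix.vecMulVec (G⁻¹ *ᵥ (-(t • a))) a) := by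
    rw [Matrix.mul_add, Matrix.mul_one, Matrix.mul_vecMulVec, Matrix.mulVec_mulVec,
      Matrix.mul_nonsing_inv _ hu, Matrix.one_mulVec, Matrix.neg_vecMulVec,
      Matrix.smul_vecMulVec, sub_eq_add_neg]
  rw [h1, Matrix.det_mul, Matrix.vecMulVec_eq Unit,
    Matrix.det_one_add_replicateCol_mul_replicateRow, Matrix.mulVec_neg, Matrix.mulVec_smul,
    dotProduct_neg, dotProduct_smul, smul_eq_mul, sub_eq_add_neg]

/-- with `S_i = G_i - (1/μ_i) a_i a_iᵀ`: the determinant of the block matrix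
`diag (G₁, G₂) - (1/(μ₁+μ₂-1)) a aᵀ` -/
theorem det_block {m k : ℕ} (G₁ : Matrix (Fin m) (Fin m) ℝ) (G₂ : Matrix (Fin k) (Fin k) ℝ)
    (h₁ : G₁.det ≠ 0) (h₂ : G₂.det ≠ 0) (a : Fin m → ℝ) (b : Fin k → ℝ) (μ ν : ℝ) (hμ : 1 ≤ μ)
    (hν : 1 ≤ ν) :
    (Matrix.fromBlocks G₁ 0 0 G₂ -
        (1 / (μ + ν - 1)) • Matrix.vecMulVec (Sum.elim a b) (Sum.elim a b)).det * (μ + ν - 1) =
      μ * (G₁ - (1 / μ) • Matrix.vecMulVec a a).det * G₂.det +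
        ν * (G₂ - (1 / ν) • Matrix.vecMulVec b b).det * G₁.det - G₁.det * G₂.det := by
  have hd : (Matrix.fromBlocks G₁ 0 0 G₂).det = G₁.det * G₂.det :=
    Matrix.det_fromBlocks_zero₂₁ G₁ 0 G₂
  have hd0 : (Matrix.fromBlocks G₁ 0 0 G₂).det ≠ 0 := by
    rw [hd]
    exact mul_ne_zero h₁ h₂
  have hu₁ : IsUnit G₁ := (Matrix.isUnit_iff_isUnit_det _).2 (isUnit_iff_ne_zero.2 h₁)
  have hu₂ : IsUnit G₂ := (Matrix.isUnit_iff_isUnit_det _).2 (isUnit_iff_ne_zero.2 h₂)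
  have hinv : (Matrix.fromBlocks G₁ 0 0 G₂)⁻¹ = Matrix.fromBlocks G₁⁻¹ 0 0 G₂⁻¹ := by
    rw [Matrix.inv_fromBlocks_zero₂₁_of_isUnit_iff G₁ 0 G₂ (iff_of_true hu₁ hu₂)]
    simp
  have hq : Sum.elim a b ⬝ᵥ ((Matrix.fromBlocks G₁ 0 0 G₂)⁻¹ *ᵥ Sum.elim a b) =
      a ⬝ᵥ (G₁⁻¹ *ᵥ a) + b ⬝ᵥ (G₂⁻¹ *ᵥ b) := by
    rw [hinv, Matrix.fromBlocks_mulVec, sumElim_dotProduct_sumElim]
    simp
  rw [det_sub_vec _ hd0, det_sub_vec _ h₁, det_sub_vec _ h₂, hd, hq]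
  have e1 : μ ≠ 0 := by linarith
  have e2 : ν ≠ 0 := by linarith
  have e3 : μ + ν - 1 ≠ 0 := by linarith
  field_simp
  ring

private theorem Det_quad {n : ℕ} (S : Matrix (Fin n) (Fin n) ℝ) (hS : S.PosDef) (a : Fin n → ℝ)
    (μ : ℝ) :
    (S + (1 / μ) • Matrix.vecMulVec a a).det = S.det * (1 + (1 / μ) * (a ⬝ᵥ (S⁻¹ *ᵥ a))) ∧
      0 ≤ a ⬝ᵥ (S⁻¹ *ᵥ a) ∧ (S⁻¹ *ᵥ a) ⬝ᵥ a = a ⬝ᵥ (S⁻¹ *ᵥ a) ∧
      (S⁻¹ *ᵥ a) ⬝ᵥ (S *ᵥ (S⁻¹ *ᵥ a)) = a ⬝ᵥ (S⁻¹ *ᵥ a) := by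
  have hd : S.det ≠ 0 := hS.det_pos.ne'
  refine ⟨?_, ?_, dotProduct_comm _ _, ?_⟩
  · have h1 := det_sub_vec S hd a (-(1 / μ))
    rw [neg_smul, sub_neg_eq_add] at h1
    rw [h1]
    ring
  · have := hS.inv.posSemidef.dotProduct_mulVec_nonneg a
    rwa [star_trivial] at this
  · rw [Matrix.mulVec_mulVec, Matrix.mul_nonsing_inv _ (isUnit_iff_ne_zero.2 hd),
      Matrix.one_mulVec]
    exact dotProduct_comm _ _

/-- comparison: if `S` is positive definite, `G = S + (1/μ) a aᵀ`, and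
`(ξ·a)² ≤ μ (μ-1) ξᵀSξ` for all `ξ`, then `0 < det G ≤ μ det S`.
(`det G = det S (1 + aᵀS⁻¹a/μ)`; apply the hypothesis to `ξ = S⁻¹ a`.) -/
theorem det_compare {n : ℕ} (S : Matrix (Fin n) (Fin n) ℝ) (hS : S.PosDef) (a : Fin n → ℝ) (μ : ℝ)
    (hμ : 1 ≤ μ) (h : ∀ ξ : Fin n → ℝ, (ξ ⬝ᵥ a) ^ 2 ≤ μ * (μ - 1) * (ξ ⬝ᵥ (S *ᵥ ξ))) :
    0 < (S + (1 / μ) • Matrix.vecMulVec a a).det ∧
      (S + (1 / μ) • Matrix.vecMulVec a a).det ≤ μ * S.det := by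
  obtain ⟨h1, h2, h3, h4⟩ := Det_quad S hS a μ
  have h5 := h (S⁻¹ *ᵥ a)
  rw [h3, h4] at h5
  rw [h1]
  have hd := hS.det_pos
  have hμ0 : 0 < μ := by linarith
  generalize a ⬝ᵥ (S⁻¹ *ᵥ a) = q at *
  have hq : 0 ≤ 1 / μ * q := by positivity
  refine ⟨mul_pos hd (by linarith), ?_⟩
  have h6 : q ≤ μ * (μ - 1) := by
    rcases eq_or_lt_of_le h2 with h0 | h0
    · rw [← h0]
      exact mul_nonneg hμ0.le (by linarith)
    · rw [pow_two] at h5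
      exact le_of_mul_le_mul_right h5 h0
  have h7 : 1 / μ * q ≤ μ - 1 := by
    rw [one_div, inv_mul_le_iff₀ hμ0]
    exact h6
  rw [mul_comm μ]
  exact mul_le_mul_of_nonneg_left (by linarith) hd.le

/-- strict version: if moreover the inequality is strict for all `ξ ≠ 0` then `det G < μ det S` -/
theorem det_compare_strict {n : ℕ} (S : Matrix (Fin n) (Fin n) ℝ) (hS : S.PosDef)
    (a : Fin n → ℝ) (μ : ℝ) (hμ : 1 < μ)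
    (h : ∀ ξ : Fin n → ℝ, ξ ≠ 0 → (ξ ⬝ᵥ a) ^ 2 < μ * (μ - 1) * (ξ ⬝ᵥ (S *ᵥ ξ))) :
    (S + (1 / μ) • Matrix.vecMulVec a a).det < μ * S.det := by
  obtain ⟨h1, h2, h3, h4⟩ := Det_quad S hS a μ
  have h5 := h (S⁻¹ *ᵥ a)
  rw [h3, h4] at h5
  rw [h1]
  have hd := hS.det_pos
  have hμ0 : 0 < μ := by linarith
  have h6 : a ⬝ᵥ (S⁻¹ *ᵥ a) < μ * (μ - 1) := by
    by_cases h0 : S⁻¹ *ᵥ a = 0
    · rw [h0, dotProduct_zero]
      exact mul_pos hμ0 (by linarith)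
    · have h6 := h5 h0
      rcases eq_or_lt_of_le h2 with h7 | h7
      · rw [← h7]
        exact mul_pos hμ0 (by linarith)
      · rw [pow_two] at h6
        exact lt_of_mul_lt_mul_right h6 h7.le
  have h7 : 1 / μ * (a ⬝ᵥ (S⁻¹ *ᵥ a)) < μ - 1 := by
    rw [one_div, inv_mul_lt_iff₀ hμ0]
    exact h6
  rw [mul_comm μ]
  exact mul_lt_mul_of_pos_left (by linarith) hd

end Vale.Agent.P254U
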