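import Vale.Agent.Lib.P254U.FS.SimpG

/-!
P254U/FS/EqCase: a free sum of two simplices one of which has the vertex `0` is a simplex.

`K = conv v`, `v j₀ = 0`, `L = conv w`, `0 ∈ L`.  The `m + k + 1` points `append (v j) 0` (`j ≠ j₀`) and
`append 0 (w l)` have convex hull `fsum K L` (the point `append (v j₀) 0 = 0 = append 0 0` lies in
the hull of the `append 0 (w l)`), which has nonempty interior (`fsum_convBody`), so their affine
span is everything and `m + k + 1` points affinely spanning `ℝ^(m+k)` are affinely independent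
(`affineIndependent_iff_le_finrank_vectorSpan` or similar).  Index the points by
`Fin (m + k + 1)` through a bijection with `{j // j ≠ j₀} ⊕ Fin (k+1)` (`Fintype.equivFinOfCardEq`).
-/

open MeasureTheory Set

namespace Vale.Agent.P254U

variable {m k n : ℕ}

/-- `n + 1` points whose convex hull has nonempty interior are affinely independent -/
theorem affineIndependent_of_interior {ι : Type} [Fintype ι] (hι : Fintype.card ι = n + 1)
    (p : ι → (Fin n → ℝ)) (h : (interior (convexHull ℝ (range p))).Nonempty) :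
    AffineIndependent ℝ p := by
  rw [affineIndependent_iff_finrank_vectorSpan_eq ℝ p hι,
    AffineSubspace.vectorSpan_eq_top_of_affineSpan_eq_top ℝ (Fin n → ℝ) (Fin n → ℝ)
      (interior_convexHull_nonempty_iff_affineSpan_eq_top.1 h), finrank_top,
    Module.finrank_fin_fun]

private def eqCase_f (m k : ℕ) : (Fin m → ℝ) →ₗ[ℝ] (Fin (m + k) → ℝ) where
  toFun a := Fin.append a (0 : Fin k → ℝ)
  map_add' a a' := by
    funext i
    refine Fin.addCases (fun i => ?_) (fun i => ?_) i
    · simp only [Fin.append_left, Pi.add_apply]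
    · simp only [Fin.append_right, Pi.add_apply, Pi.zero_apply, add_zero]
  map_smul' c a := by
    funext i
    refine Fin.addCases (fun i => ?_) (fun i => ?_) i
    · simp only [Fin.append_left, Pi.smul_apply, RingHom.id_apply]
    · simp only [Fin.append_right, Pi.smul_apply, Pi.zero_apply, smul_zero, RingHom.id_apply]

private def eqCase_g (m k : ℕ) : (Fin k → ℝ) →ₗ[ℝ] (Fin (m + k) → ℝ) where
  toFun b := Fin.append (0 : Fin m → ℝ) b
  map_add' a a' := by
    funext i
    refine Fin.addCases (fun i => ?_) (fun i => ?_) i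
    · simp only [Fin.append_left, Pi.add_apply, Pi.zero_apply, add_zero]
    · simp only [Fin.append_right, Pi.add_apply]
  map_smul' c a := by
    funext i
    refine Fin.addCases (fun i => ?_) (fun i => ?_) i
    · simp only [Fin.append_left, Pi.smul_apply, Pi.zero_apply, smul_zero, RingHom.id_apply]
    · simp only [Fin.append_right, Pi.smul_apply, RingHom.id_apply]

private theorem eqCase_general {K : Set (Fin m → ℝ)} {L : Set (Fin k → ℝ)} (hK : IsSimplex K)
    (hL : IsSimplex L) {ι : Type} [Fintype ι] (hι : Fintype.card ι = m + k + 1)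
    (p : ι → (Fin (m + k) → ℝ)) (hp : fsum K L = convexHull ℝ (range p)) :
    IsSimplex (fsum K L) := by
  have h1 : AffineIndependent ℝ p := by
    refine affineIndependent_of_interior hι p ?_
    rw [← hp]
    exact (fsum_convBody hK.convBody hL.convBody).interior_nonempty
  have e : Fin (m + k + 1) ≃ ι := (Fintype.equivFinOfCardEq hι).symm
  refine ⟨p ∘ e, (affineIndependent_equiv e).2 h1, ?_⟩
  rw [hp, e.surjective.range_comp]

theorem fsum_simplex {K : Set (Fin m → ℝ)} {L : Set (Fin k → ℝ)}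
    {v : Fin (m + 1) → (Fin m → ℝ)} (hv : AffineIndependent ℝ v)
    (hKv : K = convexHull ℝ (range v)) {j₀ : Fin (m + 1)} (hj : v j₀ = 0) (hL : IsSimplex L)
    (h0' : (0 : Fin k → ℝ) ∈ L) : IsSimplex (fsum K L) := by
  classical
  obtain ⟨w, hw, hLw⟩ := hL
  let p : {j : Fin (m + 1) // j ≠ j₀} ⊕ Fin (k + 1) → (Fin (m + k) → ℝ) :=
    Sum.elim (fun j => eqCase_f m k (v j)) (fun l => eqCase_g m k (w l))
  have hcard : Fintype.card ({j : Fin (m + 1) // j ≠ j₀} ⊕ Fin (k + 1)) = m + k + 1 := by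
    rw [Fintype.card_sum, Fintype.card_fin]
    have h1 : Fintype.card {j : Fin (m + 1) // j ≠ j₀} = m := by
      rw [Fintype.card_subtype_compl, Fintype.card_fin, Fintype.card_subtype_eq]
      omega
    rw [h1]
    ring
  refine eqCase_general ⟨v, hv, hKv⟩ ⟨w, hw, hLw⟩ hcard p ?_
  have hg : (eqCase_g m k) '' L ⊆ convexHull ℝ (range p) := by
    rw [hLw, LinearMap.image_convexHull]
    refine convexHull_mono ?_
    rintro _ ⟨_, ⟨l, rfl⟩, rfl⟩
    exact ⟨Sum.inr l, rfl⟩
  have h0 : (0 : Fin (m + k) → ℝ) ∈ convexHull ℝ (range p) :=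
    hg ⟨0, h0', map_zero _⟩
  apply Subset.antisymm
  · refine convexHull_min (union_subset ?_ hg) (convex_convexHull ℝ _)
    change (eqCase_f m k) '' K ⊆ _
    rw [hKv, LinearMap.image_convexHull]
    refine convexHull_min ?_ (convex_convexHull ℝ _)
    rintro _ ⟨_, ⟨j, rfl⟩, rfl⟩
    by_cases hjj : j = j₀
    · rw [hjj, hj, map_zero]
      exact h0
    · exact subset_convexHull ℝ _ ⟨Sum.inl ⟨j, hjj⟩, rfl⟩
  · refine convexHull_min ?_ (convex_convexHull ℝ _)
    rintro _ ⟨j | l, rfl⟩
    · refine subset_convexHull ℝ _ (Or.inl ⟨v j, ?_, rfl⟩)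
      rw [hKv]
      exact subset_convexHull ℝ _ ⟨j, rfl⟩
    · refine subset_convexHull ℝ _ (Or.inr ⟨w l, ?_, rfl⟩)
      rw [hLw]
      exact subset_convexHull ℝ _ ⟨l, rfl⟩

/-- the same with the roles exchanged -/
theorem fsum_simplex' {K : Set (Fin m → ℝ)} {L : Set (Fin k → ℝ)}
    {w : Fin (k + 1) → (Fin k → ℝ)} (hw : AffineIndependent ℝ w)
    (hLw : L = convexHull ℝ (range w)) {j₀ : Fin (k + 1)} (hj : w j₀ = 0) (hK : IsSimplex K)
    (h0 : (0 : Fin m → ℝ) ∈ K) : IsSimplex (fsum K L) := by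
  classical
  obtain ⟨v, hv, hKv⟩ := hK
  let p : Fin (m + 1) ⊕ {l : Fin (k + 1) // l ≠ j₀} → (Fin (m + k) → ℝ) :=
    Sum.elim (fun j => eqCase_f m k (v j)) (fun l => eqCase_g m k (w l))
  have hcard : Fintype.card (Fin (m + 1) ⊕ {l : Fin (k + 1) // l ≠ j₀}) = m + k + 1 := by
    rw [Fintype.card_sum, Fintype.card_fin]
    have h1 : Fintype.card {l : Fin (k + 1) // l ≠ j₀} = k := by
      rw [Fintype.card_subtype_compl, Fintype.card_fin, Fintype.card_subtype_eq]
      omega
    rw [h1]
    ring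
  refine eqCase_general ⟨v, hv, hKv⟩ ⟨w, hw, hLw⟩ hcard p ?_
  have hg : (eqCase_f m k) '' K ⊆ convexHull ℝ (range p) := by
    rw [hKv, LinearMap.image_convexHull]
    refine convexHull_mono ?_
    rintro _ ⟨_, ⟨l, rfl⟩, rfl⟩
    exact ⟨Sum.inl l, rfl⟩
  have h00 : (0 : Fin (m + k) → ℝ) ∈ convexHull ℝ (range p) :=
    hg ⟨0, h0, map_zero _⟩
  apply Subset.antisymm
  · refine convexHull_min (union_subset hg ?_) (convex_convexHull ℝ _)
    change (eqCase_g m k) '' L ⊆ _
    rw [hLw, LinearMap.image_convexHull]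
    refine convexHull_min ?_ (convex_convexHull ℝ _)
    rintro _ ⟨_, ⟨j, rfl⟩, rfl⟩
    by_cases hjj : j = j₀
    · rw [hjj, hj, map_zero]
      exact h00
    · exact subset_convexHull ℝ _ ⟨Sum.inr ⟨j, hjj⟩, rfl⟩
  · refine convexHull_min ?_ (convex_convexHull ℝ _)
    rintro _ ⟨j | l, rfl⟩
    · refine subset_convexHull ℝ _ (Or.inl ⟨v j, ?_, rfl⟩)
      rw [hKv]
      exact subset_convexHull ℝ _ ⟨j, rfl⟩
    · refine subset_convexHull ℝ _ (Or.inr ⟨w l, ?_, rfl⟩)
      rw [hLw]
      exact subset_convexHull ℝ _ ⟨l, rfl⟩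

end Vale.Agent.P254U
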