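import Vale.Agent.Lib.P254U.FS.Mem
import Vale.Agent.Lib.P254U.StdSimplex

/-!
P254U/FS/Layer: the layer cake integral.

`scale_integral`: `∫_{sK} f = s^(n+d) ∫_K f` (`MeasureTheory.Measure.setIntegral_comp_smul` or
`addHaar` scaling; `s > 0`; for `s = 0` both sides vanish when `1 ≤ n`).
`rho_integral`: `(1 - ρ)^q = ∫_0^1 q (1-s)^(q-1) 1[ρ ≤ s] ds` for `q ≥ 1`, Fubini on
`K × [0,1]` (everything bounded; the set `{(a,s) : rho K a ≤ s}` is measurable: on `K × [0,1]` it is
`{(a,s) : a ∈ s K}`, the image of the compact set `K × [0,1]` under `(x,s) ↦ (s x, s)`, hence compact),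
then `∫_0^1 q (1-s)^(q-1) s^(n+d) ds = (n+d)! q! / (n+d+q)!` (`stdSimplex_beta`).
`rho_measurable`: sublevel sets are compact.
-/

open MeasureTheory Set
open scoped Pointwise

namespace Vale.Agent.P254U

variable {n : ℕ}

/-- `f` is homogeneous of degree `d` -/
def Hom (d : ℕ) (f : (Fin n → ℝ) → ℝ) : Prop := ∀ (s : ℝ) (x : Fin n → ℝ), f (s • x) = s ^ d * f x

theorem scale_integral {K : Set (Fin n → ℝ)} {d : ℕ} {f : (Fin n → ℝ) → ℝ}
    (hf : Hom d f) {s : ℝ} (hs : 0 < s) :
    ∫ b in {b : Fin n → ℝ | ∃ y ∈ K, b = s • y}, f b = s ^ (n + d) * ∫ x in K, f x := by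
  have e : {b : Fin n → ℝ | ∃ y ∈ K, b = s • y} = s • K := by
    ext b
    simp only [mem_ofPred_eq, Set.mem_smul_set]
    constructor
    · rintro ⟨y, hy, rfl⟩
      exact ⟨y, hy, rfl⟩
    · rintro ⟨y, hy, rfl⟩
      exact ⟨y, hy, rfl⟩
  have h := Measure.setIntegral_comp_smul_of_pos (volume : Measure (Fin n → ℝ)) f K hs
  simp_rw [hf s] at h
  rw [integral_const_mul, Module.finrank_fin_fun, smul_eq_mul, ← e] at h
  have hn : s ^ n ≠ 0 := (pow_pos hs n).ne'
  rw [pow_add, mul_assoc, h, mul_inv_cancel_left₀ hn]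

private theorem Layer_T {K : Set (Fin n → ℝ)} (hK : ConvBody n K)
    (h0 : (0 : Fin n → ℝ) ∈ K) {s : ℝ} (hs0 : 0 ≤ s) (hs1 : s ≤ 1) {x : Fin n → ℝ} (hx : x ∈ K) :
    s • x ∈ K := by
  have := hK.convex hx h0 hs0 (sub_nonneg.2 hs1) (by ring)
  simpa using this

theorem rho_integral (hn : 1 ≤ n) {K : Set (Fin n → ℝ)} (hK : ConvBody n K)
    (h0 : (0 : Fin n → ℝ) ∈ K) {d : ℕ} {f : (Fin n → ℝ) → ℝ} (hf : Hom d f) (hc : Continuous f)
    {q : ℕ} (hq : 1 ≤ q) :
    ∫ a in K, f a * (1 - rho K a) ^ q =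
      (((n + d).factorial : ℝ) * (q.factorial : ℝ)) / ((n + d + q).factorial : ℝ) *
        ∫ x in K, f x := by
  obtain ⟨p, rfl⟩ : ∃ p, q = p + 1 := ⟨q - 1, by omega⟩
  set g : ℝ → ℝ := fun s => ((p : ℝ) + 1) * (1 - s) ^ p with hg
  have hgc : Continuous g := by
    rw [hg]
    fun_prop
  set T : Set ((Fin n → ℝ) × ℝ) := (fun z : (Fin n → ℝ) × ℝ => (z.2 • z.1, z.2)) ''
    (K ×ˢ Icc (0 : ℝ) 1) with hT
  have hTc : IsCompact T := by
    rw [hT]
    exact (hK.compact.prod isCompact_Icc).image (by fun_prop)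
  have hTm : MeasurableSet T := hTc.measurableSet
  have hmemT : ∀ (a : Fin n → ℝ) (s : ℝ), (a, s) ∈ T ↔
      (0 ≤ s ∧ s ≤ 1) ∧ ∃ x ∈ K, a = s • x := by
    intro a s
    rw [hT]
    constructor
    · rintro ⟨⟨x, t⟩, ⟨hx, ht⟩, he⟩
      simp only [Prod.mk.injEq] at he
      obtain ⟨he1, he2⟩ := he
      subst he2
      exact ⟨⟨ht.1, ht.2⟩, x, hx, he1.symm⟩
    · rintro ⟨hs, x, hx, rfl⟩
      exact ⟨(x, s), ⟨hx, hs⟩, rfl⟩
  set G : (Fin n → ℝ) × ℝ → ℝ := fun z => f z.1 * g z.2 with hG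
  have hGc : Continuous G := by
    rw [hG]
    fun_prop
  set F : (Fin n → ℝ) → ℝ → ℝ := fun a s => T.indicator G (a, s) with hF
  have hint : Integrable (Function.uncurry F)
      ((volume.restrict K).prod (volume.restrict (Ioc (0 : ℝ) 1))) := by
    have h1 : Integrable (T.indicator G) ((volume : Measure (Fin n → ℝ)).prod
        (volume : Measure ℝ)) :=
      (integrable_indicator_iff hTm).2 (hGc.continuousOn.integrableOn_compact hTc)
    rw [Measure.prod_restrict]
    exact h1.restrict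
  -- the inner integral over `s`
  have hin1 : ∀ a ∈ K, ∫ s in Ioc (0 : ℝ) 1, F a s = f a * (1 - rho K a) ^ (p + 1) := by
    intro a ha
    have hr0 := rho_nonneg K a
    have hr1 := rho_le_one hK h0 ha
    have e1 : ∫ s in Ioc (0 : ℝ) 1, F a s =
        ∫ s in Ioc (0 : ℝ) 1, (Ioi (rho K a)).indicator (fun s => f a * g s) s := by
      refine integral_congr_ae ?_
      have hne : ∀ᵐ s ∂(volume.restrict (Ioc (0 : ℝ) 1)), s ≠ rho K a := by
        refine ae_restrict_of_ae ?_
        exact compl_mem_ae_iff.2 (measure_singleton (rho K a))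
      filter_upwards [ae_restrict_mem measurableSet_Ioc, hne] with s hs hs2
      have h3 : (a, s) ∈ T ↔ s ∈ Ioi (rho K a) := by
        rw [hmemT, ← rho_le_iff hK h0 ha hs.1.le, mem_Ioi]
        constructor
        · rintro ⟨-, h4⟩
          exact lt_of_le_of_ne h4 hs2.symm
        · intro h4
          exact ⟨⟨hs.1.le, hs.2⟩, h4.le⟩
      simp only [hF]
      by_cases h4 : (a, s) ∈ T
      · rw [indicator_of_mem h4, indicator_of_mem (h3.1 h4)]
      · rw [indicator_of_notMem h4, indicator_of_notMem (fun h5 => h4 (h3.2 h5))]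
    have e2 : Ioc (0 : ℝ) 1 ∩ Ioi (rho K a) = Ioc (rho K a) 1 := by
      ext s
      simp only [mem_inter_iff, mem_Ioc, mem_Ioi]
      constructor
      · rintro ⟨⟨_, h5⟩, h6⟩
        exact ⟨h6, h5⟩
      · rintro ⟨h5, h6⟩
        exact ⟨⟨hr0.trans_lt h5, h6⟩, h5⟩
    rw [e1, setIntegral_indicator measurableSet_Ioi, e2, integral_const_mul,
      ← intervalIntegral.integral_of_le hr1]
    congr 1
    simp only [hg]
    rw [intervalIntegral.integral_const_mul]
    have e3 := intervalIntegral.integral_comp_sub_left (a := rho K a) (b := 1)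
      (fun x : ℝ => x ^ p) 1
    rw [e3, integral_pow]
    have hp : (p : ℝ) + 1 ≠ 0 := by positivity
    field_simp
    ring
  -- the inner integral over `a`
  have hin2 : ∀ s ∈ Ioc (0 : ℝ) 1, ∫ a in K, F a s = g s * (s ^ (n + d) * ∫ x in K, f x) := by
    intro s hs
    set S : Set (Fin n → ℝ) := {b : Fin n → ℝ | ∃ y ∈ K, b = s • y} with hS
    have hSc : IsCompact S := by
      have : S = (fun x : Fin n → ℝ => s • x) '' K := by
        ext b
        simp only [hS, mem_ofPred_eq, mem_image]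
        constructor
        · rintro ⟨y, hy, rfl⟩
          exact ⟨y, hy, rfl⟩
        · rintro ⟨y, hy, rfl⟩
          exact ⟨y, hy, rfl⟩
      rw [this]
      exact hK.compact.image (by fun_prop)
    have e1 : ∫ a in K, F a s = ∫ a in K, S.indicator (fun a => f a * g s) a := by
      refine integral_congr_ae (Filter.Eventually.of_forall fun a => ?_)
      have h3 : (a, s) ∈ T ↔ a ∈ S := by
        rw [hmemT]
        exact ⟨fun h => h.2, fun h => ⟨⟨hs.1.le, hs.2⟩, h⟩⟩
      simp only [hF]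
      by_cases h4 : (a, s) ∈ T
      · rw [indicator_of_mem h4, indicator_of_mem (h3.1 h4)]
      · rw [indicator_of_notMem h4, indicator_of_notMem (fun h5 => h4 (h3.2 h5))]
    have e2 : K ∩ S = S := by
      refine inter_eq_right.2 ?_
      rintro b ⟨y, hy, rfl⟩
      exact Layer_T hK h0 hs.1.le hs.2 hy
    rw [e1, setIntegral_indicator hSc.measurableSet, e2, integral_mul_const,
      scale_integral hf hs.1, mul_comm]
  calc ∫ a in K, f a * (1 - rho K a) ^ (p + 1)
      = ∫ a in K, ∫ s in Ioc (0 : ℝ) 1, F a s :=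
        setIntegral_congr_fun hK.compact.measurableSet fun a ha => (hin1 a ha).symm
    _ = ∫ s in Ioc (0 : ℝ) 1, ∫ a in K, F a s := integral_integral_swap hint
    _ = ∫ s in Ioc (0 : ℝ) 1, g s * (s ^ (n + d) * ∫ x in K, f x) :=
        setIntegral_congr_fun measurableSet_Ioc fun s hs => hin2 s hs
    _ = (∫ s in (0 : ℝ)..1, s ^ (n + d) * (1 - s) ^ p) * (((p : ℝ) + 1) * ∫ x in K, f x) := by
        rw [intervalIntegral.integral_of_le zero_le_one, ← integral_mul_const]
        refine integral_congr_ae (Filter.Eventually.of_forall fun s => ?_)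
        simp only [hg]
        ring
    _ = _ := by
        rw [stdSimplex_beta p (n + d) 1 zero_le_one, one_pow, one_mul, Nat.factorial_succ p,
          show n + d + (p + 1) = n + d + p + 1 by ring]
        push_cast
        ring

end Vale.Agent.P254U
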