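import Vale.Agent.Lib.P254U.FS.App
import Vale.Agent.Lib.P254U.FS.Layer

/-!
P254U/FS/Int: the integral of a product of homogeneous functions over a free sum.

`setIntegral_append` and `fsum_slice`: the inner integral is
`1_K(a) f(a) ∫_{(1-ρ(a)) L} g = 1_K(a) f(a) (1-ρ(a))^(k+e) ∫_L g` (`scale_integral`; if `ρ(a) = 1` the
set is `{0}`, a null set as `1 ≤ k`, and both sides vanish since `k + e ≥ 1`), then `rho_integral`.
-/

open MeasureTheory Set

namespace Vale.Agent.P254U

variable {m k : ℕ}

theorem fsum_integral (hm : 1 ≤ m) (hk : 1 ≤ k) {K : Set (Fin m → ℝ)} {L : Set (Fin k → ℝ)}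
    (hK : ConvBody m K) (hL : ConvBody k L) (h0 : (0 : Fin m → ℝ) ∈ K)
    (h0' : (0 : Fin k → ℝ) ∈ L) {d e : ℕ} {f : (Fin m → ℝ) → ℝ} {g : (Fin k → ℝ) → ℝ}
    (hf : Hom d f) (hfc : Continuous f) (hg : Hom e g) (hgc : Continuous g) :
    ∫ z in fsum K L, f (fun i => z (Fin.castAdd k i)) * g (fun j => z (Fin.natAdd m j)) =
      (((m + d).factorial : ℝ) * ((k + e).factorial : ℝ)) / ((m + d + (k + e)).factorial : ℝ) *
        (∫ x in K, f x) * ∫ y in L, g y := by
  have hφ : Continuous (fun z : Fin (m + k) → ℝ =>
      f (fun i => z (Fin.castAdd k i)) * g (fun j => z (Fin.natAdd m j))) := by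
    refine (hfc.comp ?_).mul (hgc.comp ?_)
    · exact continuous_pi fun i => continuous_apply _
    · exact continuous_pi fun j => continuous_apply _
  rw [setIntegral_append (fsum_convBody hK hL).compact hφ]
  have hL0 : L.Nonempty := ⟨0, h0'⟩
  have key : ∀ a : Fin m → ℝ,
      ∫ b in {b : Fin k → ℝ | (Fin.append a b : Fin (m + k) → ℝ) ∈ fsum K L},
        f (fun i => (Fin.append a b : Fin (m + k) → ℝ) (Fin.castAdd k i)) *
          g (fun j => (Fin.append a b : Fin (m + k) → ℝ) (Fin.natAdd m j)) =
      K.indicator (fun a => (f a * (1 - rho K a) ^ (k + e)) * ∫ y in L, g y) a := by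
    intro a
    have h1 : ∀ b : Fin k → ℝ,
        f (fun i => (Fin.append a b : Fin (m + k) → ℝ) (Fin.castAdd k i)) *
          g (fun j => (Fin.append a b : Fin (m + k) → ℝ) (Fin.natAdd m j)) = f a * g b := by
      intro b
      congr 2
      · funext i
        exact Fin.append_left a b i
      · funext j
        exact Fin.append_right a b j
    simp only [h1]
    rw [fsum_slice hK hL h0 h0' a]
    by_cases ha : a ∈ K
    · rw [Set.indicator_of_mem ha, MeasureTheory.integral_const_mul]
      have h2 : {b : Fin k → ℝ | a ∈ K ∧ ∃ y ∈ L, b = (1 - rho K a) • y} =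
          {b : Fin k → ℝ | ∃ y ∈ L, b = (1 - rho K a) • y} := by
        ext b
        simp only [Set.mem_ofPred_eq, ha, true_and]
      rw [h2]
      have h3 := rho_le_one hK h0 ha
      rcases h3.lt_or_eq with h4 | h4
      · rw [scale_integral hg (by linarith : (0 : ℝ) < 1 - rho K a), mul_assoc]
      · have h5 : {b : Fin k → ℝ | ∃ y ∈ L, b = (1 - rho K a) • y} = {0} := by
          ext b
          simp only [h4, sub_self, zero_smul, Set.mem_ofPred_eq, Set.mem_singleton_iff]
          constructor
          · rintro ⟨y, _, hb⟩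
            exact hb
          · intro hb
            exact ⟨0, h0', hb⟩
        have h6 : (volume : Measure (Fin k → ℝ)) {0} = 0 := by
          have : Nonempty (Fin k) := ⟨⟨0, hk⟩⟩
          exact measure_singleton _
        rw [h5, setIntegral_measure_zero _ h6, h4, sub_self, zero_pow (by omega : k + e ≠ 0)]
        ring
    · rw [Set.indicator_of_notMem ha]
      have h2 : {b : Fin k → ℝ | a ∈ K ∧ ∃ y ∈ L, b = (1 - rho K a) • y} = ∅ := by
        ext b
        simp [ha]
      rw [h2, setIntegral_empty]
  simp only [key]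
  rw [integral_indicator hK.compact.measurableSet, MeasureTheory.integral_mul_const,
    rho_integral hm hK h0 hf hfc (by omega : 1 ≤ k + e)]

/-- Fubini for products -/
theorem prod_integral {K : Set (Fin m → ℝ)} {L : Set (Fin k → ℝ)}
    (hK : ConvBody m K) (hL : ConvBody k L) {f : (Fin m → ℝ) → ℝ} {g : (Fin k → ℝ) → ℝ}
    (hfc : Continuous f) (hgc : Continuous g) :
    ∫ z in prodSet K L, f (fun i => z (Fin.castAdd k i)) * g (fun j => z (Fin.natAdd m j)) =
      (∫ x in K, f x) * ∫ y in L, g y := by
  have hφ : Continuous (fun z : Fin (m + k) → ℝ =>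
      f (fun i => z (Fin.castAdd k i)) * g (fun j => z (Fin.natAdd m j))) := by
    refine (hfc.comp ?_).mul (hgc.comp ?_)
    · exact continuous_pi fun i => continuous_apply _
    · exact continuous_pi fun j => continuous_apply _
  rw [setIntegral_append (prod_convBody hK hL).compact hφ]
  have key : ∀ a : Fin m → ℝ,
      ∫ b in {b : Fin k → ℝ | (Fin.append a b : Fin (m + k) → ℝ) ∈ prodSet K L},
        f (fun i => (Fin.append a b : Fin (m + k) → ℝ) (Fin.castAdd k i)) *
          g (fun j => (Fin.append a b : Fin (m + k) → ℝ) (Fin.natAdd m j)) =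
      K.indicator (fun a => f a * ∫ y in L, g y) a := by
    intro a
    have h1 : ∀ b : Fin k → ℝ,
        f (fun i => (Fin.append a b : Fin (m + k) → ℝ) (Fin.castAdd k i)) *
          g (fun j => (Fin.append a b : Fin (m + k) → ℝ) (Fin.natAdd m j)) = f a * g b := by
      intro b
      congr 2
      · funext i
        exact Fin.append_left a b i
      · funext j
        exact Fin.append_right a b j
    simp only [h1]
    have h2 : {b : Fin k → ℝ | (Fin.append a b : Fin (m + k) → ℝ) ∈ prodSet K L} =
        {b : Fin k → ℝ | a ∈ K ∧ b ∈ L} := by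
      ext b
      simp only [prodSet, Set.mem_ofPred_eq]
      have h3 : (fun i : Fin m => (Fin.append a b : Fin (m + k) → ℝ) (Fin.castAdd k i)) = a := by
        funext i
        exact Fin.append_left a b i
      have h4 : (fun j : Fin k => (Fin.append a b : Fin (m + k) → ℝ) (Fin.natAdd m j)) = b := by
        funext j
        exact Fin.append_right a b j
      rw [h3, h4]
    rw [h2]
    by_cases ha : a ∈ K
    · rw [Set.indicator_of_mem ha, MeasureTheory.integral_const_mul]
      have h3 : {b : Fin k → ℝ | a ∈ K ∧ b ∈ L} = L := by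
        ext b
        simp only [Set.mem_ofPred_eq, ha, true_and]
      rw [h3]
    · rw [Set.indicator_of_notMem ha]
      have h3 : {b : Fin k → ℝ | a ∈ K ∧ b ∈ L} = ∅ := by
        ext b
        simp [ha]
      rw [h3, setIntegral_empty]
  simp only [key]
  rw [integral_indicator hK.compact.measurableSet, MeasureTheory.integral_mul_const]

end Vale.Agent.P254U
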