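import Vale.Agent.Lib.P254U.FS.RatSum
import Vale.Agent.Lib.P254U.Aff

/-!
P254U/FS/Join: cones (pyramids) and joins.

`Rat_affine`: `isoConst_affine`, `det_covM_eq_Rat`, and injectivity of `x ↦ x^(1/(2n))` on `[0, ∞)`.
`unitI_rat`: dimension one, volume `1`, centroid `1/2`, variance `1/12`.
`exists_cone`: translate `K` so that `0 ∈ K` (`Rat_affine`), let `P = fsum K unitI` and
`C = {p - x : x ∈ P}` with the apex `p = append 0 1` moved to `0`.  `Rat P = Rat K` by `Rat_fsum` since
`Rat unitI = Gam unitI = 1`.  `Gam C = Rat C`: with `n = m + 1` and `h(x) =` last coordinate of a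
point of `C` (`= 1 - t` on `P`), `fsum_integral` with `g = 1, t, t²` gives `E t = 1/(n+1)`,
`E t² = 2/((n+1)(n+2))`, so `E h = n/(n+1)`, `E h² = n/(n+2)`: equality in `kls` for `ξ = h`.  The
quadratic form `q(ξ) = n (n+1) ξᵀ SM ξ - (ξ·a)²` (`a = (n+1) c`) is nonnegative by `kls` and
vanishes at `h`, so `n (n+1) SM h = (h·a) a` (the kernel of a nonnegative form), hence
`aᵀ SM⁻¹ a = n (n+1)` and `det GM = det SM (1 + aᵀ SM⁻¹ a/(n+1)) = (n+1) det SM` (`det_sub_vec` with
`t = -1/(n+1)`, `GM_eq`).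
`exists_join`: `fsum C L` for `C` from `exists_cone` and `L` translated so that `0 ∈ L`.
-/

open MeasureTheory Set

namespace Vale.Agent.P254U

variable {m k n : ℕ}

private theorem join_image {K : Set (Fin n → ℝ)} (hK : ConvBody n K)
    (T : (Fin n → ℝ) ≃ᵃ[ℝ] (Fin n → ℝ)) : ConvBody n (T '' K) := by
  have hc : Continuous T := AffineMap.continuous_of_finiteDimensional (T : (Fin n → ℝ) →ᵃ[ℝ] (Fin n → ℝ))
  have hcs : Continuous T.symm :=
    AffineMap.continuous_of_finiteDimensional (T.symm : (Fin n → ℝ) →ᵃ[ℝ] (Fin n → ℝ))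
  refine ⟨hK.compact.image hc, ?_, ?_⟩
  · exact hK.convex.affine_image (T : (Fin n → ℝ) →ᵃ[ℝ] (Fin n → ℝ))
  · let H : (Fin n → ℝ) ≃ₜ (Fin n → ℝ) :=
      { toEquiv := T.toEquiv
        continuous_toFun := hc
        continuous_invFun := hcs }
    have h1 : H '' interior K = interior (H '' K) := H.image_interior K
    have h2 : H '' K = T '' K := rfl
    rw [← h2, ← h1]
    exact hK.interior_nonempty.image _

theorem Rat_affine (hn : 1 ≤ n) {K : Set (Fin n → ℝ)} (hK : ConvBody n K)
    (T : (Fin n → ℝ) ≃ᵃ[ℝ] (Fin n → ℝ)) : ConvBody n (T '' K) ∧ Rat (T '' K) = Rat K := by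
  have hT := join_image hK T
  refine ⟨hT, ?_⟩
  have h := isoConst_affine hK.compact T
  have ha := RatSum_pos n
  have hn' : (0 : ℝ) < n := by exact_mod_cast hn
  rw [RatSum_iso hK, RatSum_iso hT, Real.rpow_left_inj (mul_pos (Rat_pos hT) ha).le
    (mul_pos (Rat_pos hK) ha).le (by positivity)] at h
  exact mul_right_cancel₀ ha.ne' h

/-- the unit interval in `ℝ^1` -/
def unitI : Set (Fin 1 → ℝ) := {t | 0 ≤ t 0 ∧ t 0 ≤ 1}

private theorem join_unitI : unitI = stdS 1 := by
  ext t
  simp [unitI, stdS]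

theorem unitI_convBody : ConvBody 1 unitI := by
  refine ⟨?_, ?_, ?_⟩
  · rw [join_unitI]
    exact stdS_compact 1
  · rw [join_unitI]
    exact simp_convex 1
  · refine ⟨fun _ => 1 / 2, mem_interior.2 ⟨{t : Fin 1 → ℝ | 0 < t 0 ∧ t 0 < 1}, ?_, ?_, ?_⟩⟩
    · intro t ht
      exact ⟨ht.1.le, ht.2.le⟩
    · exact (isOpen_lt continuous_const (continuous_apply 0)).inter
        (isOpen_lt (continuous_apply 0) continuous_const)
    · constructor <;> norm_num

private theorem join_volI : (volume unitI).toReal = 1 := by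
  rw [join_unitI, simp_vol]
  simp

private theorem join_cenI (i : Fin 1) : cen unitI i = 1 / 2 := by
  rw [join_unitI, simp_cen]
  norm_num

private theorem join_covI (i j : Fin 1) : covM unitI i j = 1 / 12 := by
  rw [join_unitI, simp_cov, if_pos (Subsingleton.elim i j)]
  norm_num

theorem unitI_rat : Rat unitI = 1 ∧ Gam unitI = 1 := by
  constructor
  · unfold Rat
    rw [join_volI, Matrix.det_fin_one]
    simp only [SM, join_covI]
    norm_num
  · unfold Gam
    rw [join_volI, Matrix.det_fin_one]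
    simp only [GM, join_covI, join_cenI]
    norm_num

private theorem join_int (p : Fin n → ℝ) (P : Set (Fin n → ℝ)) (f : (Fin n → ℝ) → ℝ) :
    ∫ y in (AffineEquiv.constVSub ℝ p) '' P, f y = ∫ x in P, f (p - x) := by
  have h1 : (AffineEquiv.constVSub ℝ p) '' P = (fun x => p - x) ⁻¹' P := by
    ext y
    constructor
    · rintro ⟨x, hx, rfl⟩
      show p - (p - x) ∈ P
      rwa [sub_sub_cancel]
    · intro hy
      exact ⟨p - y, hy, by show p - (p - y) = y; rw [sub_sub_cancel]⟩
  have h2 := (Measure.measurePreserving_sub_left (volume : Measure (Fin n → ℝ)) p).setIntegral_preimage_emb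
    (MeasurableEquiv.subLeft p).measurableEmbedding (fun x => f (p - x)) P
  rw [h1, ← h2]
  simp only [sub_sub_cancel]

private theorem join_vol (p : Fin n → ℝ) (P : Set (Fin n → ℝ)) :
    (volume ((AffineEquiv.constVSub ℝ p) '' P)).toReal = (volume P).toReal := by
  have h := join_int p P (fun _ => 1)
  simpa [measureReal_def] using h

private theorem join_cenC {P : Set (Fin n → ℝ)} (hP : ConvBody n P) (p : Fin n → ℝ) (i : Fin n) :
    cen ((AffineEquiv.constVSub ℝ p) '' P) i = p i - cen P i := by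
  have hV := convBody_vol_pos hP
  have h1 : ∫ x in P, (p - x) i = p i * (volume P).toReal - ∫ x in P, x i := by
    simp only [Pi.sub_apply]
    rw [integral_sub, setIntegral_const, smul_eq_mul, measureReal_def, mul_comm]
    · exact continuousOn_const.integrableOn_compact hP.compact
    · exact (continuous_apply i).continuousOn.integrableOn_compact hP.compact
  unfold cen
  rw [join_int p P (fun y => y i), join_vol, h1]
  field_simp

private theorem join_covC {P : Set (Fin n → ℝ)} (hP : ConvBody n P) (p : Fin n → ℝ) (i j : Fin n) :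
    covM ((AffineEquiv.constVSub ℝ p) '' P) i j = covM P i j := by
  unfold covM
  rw [join_int p P (fun y => (y i - cen ((AffineEquiv.constVSub ℝ p) '' P) i) *
    (y j - cen ((AffineEquiv.constVSub ℝ p) '' P) j)), join_vol, join_cenC hP, join_cenC hP]
  congr 1
  refine setIntegral_congr_fun hP.compact.measurableSet fun x _ => ?_
  simp only [Pi.sub_apply]
  ring

private theorem join_cen1 (hm : 1 ≤ m) (hk : 1 ≤ k) {K : Set (Fin m → ℝ)} {L : Set (Fin k → ℝ)}
    (hK : ConvBody m K) (hL : ConvBody k L) (h0 : (0 : Fin m → ℝ) ∈ K)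
    (h0' : (0 : Fin k → ℝ) ∈ L) (i : Fin m) : cen (fsum K L) (Fin.castAdd k i) =
      ((m : ℝ) + 1) / ((m : ℝ) + k + 1) * cen K i := by
  have h1 := fsum_integral hm hk hK hL h0 h0' (d := 1) (e := 0) (f := fun x => x i)
    (g := fun _ => 1) (fun s x => by simp) (continuous_apply i) (fun s x => by simp)
    continuous_const
  have h2 := vol_fsum hm hk hK hL h0 h0'
  have hVK := convBody_vol_pos hK
  have hVL := convBody_vol_pos hL
  have hVP := convBody_vol_pos (fsum_convBody hK hL)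
  have e1 : ∫ _y in L, (1 : ℝ) = (volume L).toReal := by
    rw [setIntegral_const, smul_eq_mul, mul_one]
    rfl
  have e2 : m + 1 + k = (m + k) + 1 := by omega
  simp only [mul_one, add_zero, e1, e2, Nat.factorial_succ] at h1
  unfold cen
  rw [h1]
  have hm' : (m.factorial : ℝ) ≠ 0 := by positivity
  have hk' : (k.factorial : ℝ) ≠ 0 := by positivity
  have hN : ((m + k).factorial : ℝ) ≠ 0 := by positivity
  have h3 : (volume (fsum K L)).toReal = ((m.factorial : ℝ) * (volume K).toReal) *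
      ((k.factorial : ℝ) * (volume L).toReal) / ((m + k).factorial : ℝ) := by
    field_simp
    linarith
  rw [h3]
  push_cast
  field_simp

private theorem join_cen2 (hm : 1 ≤ m) (hk : 1 ≤ k) {K : Set (Fin m → ℝ)} {L : Set (Fin k → ℝ)}
    (hK : ConvBody m K) (hL : ConvBody k L) (h0 : (0 : Fin m → ℝ) ∈ K)
    (h0' : (0 : Fin k → ℝ) ∈ L) (j : Fin k) : cen (fsum K L) (Fin.natAdd m j) =
      ((k : ℝ) + 1) / ((m : ℝ) + k + 1) * cen L j := by
  have h1 := fsum_integral hm hk hK hL h0 h0' (d := 0) (e := 1) (f := fun _ => 1)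
    (g := fun y => y j) (fun s x => by simp) continuous_const (fun s x => by simp)
    (continuous_apply j)
  have h2 := vol_fsum hm hk hK hL h0 h0'
  have hVK := convBody_vol_pos hK
  have hVL := convBody_vol_pos hL
  have hVP := convBody_vol_pos (fsum_convBody hK hL)
  have e1 : ∫ _y in K, (1 : ℝ) = (volume K).toReal := by
    rw [setIntegral_const, smul_eq_mul, mul_one]
    rfl
  have e2 : m + (k + 1) = (m + k) + 1 := by omega
  simp only [one_mul, add_zero, e1, e2, Nat.factorial_succ] at h1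
  unfold cen
  rw [h1]
  have hm' : (m.factorial : ℝ) ≠ 0 := by positivity
  have hk' : (k.factorial : ℝ) ≠ 0 := by positivity
  have hN : ((m + k).factorial : ℝ) ≠ 0 := by positivity
  have h3 : (volume (fsum K L)).toReal = ((m.factorial : ℝ) * (volume K).toReal) *
      ((k.factorial : ℝ) * (volume L).toReal) / ((m + k).factorial : ℝ) := by
    field_simp
    linarith
  rw [h3]
  push_cast
  field_simp

private theorem join_det (G : Matrix (Fin m) (Fin m) ℝ) (a : Fin m → ℝ) (d : ℝ) (hd : d ≠ 0) :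
    (Matrix.fromBlocks G (Matrix.of fun i (_ : Fin 1) => - a i)
      (Matrix.of fun (_ : Fin 1) i => - a i) (Matrix.of fun _ _ => d)).det =
      d * (G - (1 / d) • Matrix.vecMulVec a a).det := by
  obtain ⟨D, hD⟩ : ∃ D : Matrix (Fin 1) (Fin 1) ℝ, D = Matrix.of fun _ _ => d := ⟨_, rfl⟩
  obtain ⟨E, hE⟩ : ∃ E : Matrix (Fin 1) (Fin 1) ℝ, E = Matrix.of fun _ _ => 1 / d := ⟨_, rfl⟩
  have h1 : D * E = 1 := by
    ext i j
    fin_cases i
    fin_cases j
    simp [hD, hE, Matrix.mul_apply, hd]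
  have h2 : E * D = 1 := by
    ext i j
    fin_cases i
    fin_cases j
    simp [hD, hE, Matrix.mul_apply, hd]
  let _ : Invertible D := ⟨E, h2, h1⟩
  have h3 : ⅟D = E := rfl
  have h4 := Matrix.det_fromBlocks₂₂ G (Matrix.of fun i (_ : Fin 1) => - a i)
    (Matrix.of fun (_ : Fin 1) i => - a i) D
  rw [h3] at h4
  rw [← hD, h4, Matrix.det_fin_one, hD]
  congr 2
  ext i j
  simp only [Matrix.sub_apply, Matrix.mul_apply, Matrix.smul_apply, Matrix.vecMulVec_apply,
    smul_eq_mul, hE, Finset.univ_unique, Finset.sum_singleton, Matrix.of_apply]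
  ring

private theorem join_GMdef (C : Set (Fin n → ℝ)) (i j : Fin n) :
    GM C i j = ((n : ℝ) + 1) * ((n : ℝ) + 2) * covM C i j +
      ((n : ℝ) + 1) * (cen C i * cen C j) := rfl

private theorem join_GM (hm : 1 ≤ m) {K : Set (Fin m → ℝ)} (hK : ConvBody m K)
    (h0 : (0 : Fin m → ℝ) ∈ K) :
    (GM ((AffineEquiv.constVSub ℝ (Fin.append (0 : Fin m → ℝ) (fun _ : Fin 1 => (1 : ℝ)))) ''
      fsum K unitI)).submatrix finSumFinEquiv finSumFinEquiv =
      Matrix.fromBlocks (GM K) (Matrix.of fun i (_ : Fin 1) => - (((m : ℝ) + 1) * cen K i))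
        (Matrix.of fun (_ : Fin 1) i => - (((m : ℝ) + 1) * cen K i))
        (Matrix.of fun _ _ => (m : ℝ) + 1) := by
  have h0' : (0 : Fin 1 → ℝ) ∈ unitI := ⟨le_rfl, zero_le_one⟩
  have hP := fsum_convBody hK unitI_convBody
  have hS := SM_fsum hm le_rfl hK unitI_convBody h0 h0'
  have c1 := join_cen1 hm le_rfl hK unitI_convBody h0 h0'
  have c2 := join_cen2 hm le_rfl hK unitI_convBody h0 h0'
  have hN1 : (m : ℝ) + 1 + 1 ≠ 0 := by positivity
  have hm0 : (0 : ℝ) ≤ m := Nat.cast_nonneg m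
  have hGI : GM unitI = 1 := by
    ext i j
    fin_cases i
    fin_cases j
    simp only [GM, join_covI, join_cenI]
    norm_num
  have key : ∀ i j : Fin m ⊕ Fin 1,
      GM ((AffineEquiv.constVSub ℝ (Fin.append (0 : Fin m → ℝ) (fun _ : Fin 1 => (1 : ℝ)))) ''
        fsum K unitI) (finSumFinEquiv i) (finSumFinEquiv j) =
      Matrix.fromBlocks (GM K) 0 0 1 i j -
        1 / ((m : ℝ) + 1 + 1) * (avec K unitI i * avec K unitI j) +
        ((m : ℝ) + 1 + 1) * (((Fin.append (0 : Fin m → ℝ) (fun _ : Fin 1 => (1 : ℝ)) :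
          Fin (m + 1) → ℝ) (finSumFinEquiv i) - cen (fsum K unitI) (finSumFinEquiv i)) *
          ((Fin.append (0 : Fin m → ℝ) (fun _ : Fin 1 => (1 : ℝ)) :
          Fin (m + 1) → ℝ) (finSumFinEquiv j) - cen (fsum K unitI) (finSumFinEquiv j))) := by
    intro i j
    have h1 := hS i j
    rw [hGI] at h1
    unfold SM at h1
    rw [join_GMdef, join_covC hP, join_cenC hP, join_cenC hP, h1]
    push_cast
    ring
  ext i j
  rw [Matrix.submatrix_apply, key]
  rcases i with i | i <;> rcases j with j | j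
  · rw [finSumFinEquiv_apply_left, finSumFinEquiv_apply_left, c1, c1,
      Matrix.fromBlocks_apply₁₁, Matrix.fromBlocks_apply₁₁, Fin.append_left, Fin.append_left]
    unfold avec
    simp only [Sum.elim_inl, Pi.zero_apply]
    push_cast
    field_simp
    ring
  · rw [finSumFinEquiv_apply_left, finSumFinEquiv_apply_right, c1, c2,
      Matrix.fromBlocks_apply₁₂, Matrix.fromBlocks_apply₁₂, Fin.append_left, Fin.append_right,
      join_cenI]
    unfold avec
    simp only [Sum.elim_inl, Sum.elim_inr, Pi.zero_apply, Matrix.zero_apply, Matrix.of_apply,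
      join_cenI]
    push_cast
    field_simp
    ring
  · rw [finSumFinEquiv_apply_left, finSumFinEquiv_apply_right, c1, c2,
      Matrix.fromBlocks_apply₂₁, Matrix.fromBlocks_apply₂₁, Fin.append_left, Fin.append_right,
      join_cenI]
    unfold avec
    simp only [Sum.elim_inl, Sum.elim_inr, Pi.zero_apply, Matrix.zero_apply, Matrix.of_apply,
      join_cenI]
    push_cast
    field_simp
    ring
  · rw [finSumFinEquiv_apply_right, finSumFinEquiv_apply_right, c2, c2,
      Matrix.fromBlocks_apply₂₂, Matrix.fromBlocks_apply₂₂, Fin.append_right, Fin.append_right,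
      join_cenI, join_cenI, Subsingleton.elim i j]
    unfold avec
    simp only [Sum.elim_inr, Matrix.one_apply_eq, Matrix.of_apply, join_cenI]
    push_cast
    field_simp
    ring

private theorem join_zero (hm : 1 ≤ m) {K : Set (Fin m → ℝ)} (hK : ConvBody m K) :
    ∃ K' : Set (Fin m → ℝ), ConvBody m K' ∧ (0 : Fin m → ℝ) ∈ K' ∧ Rat K' = Rat K := by
  obtain ⟨x₀, hx₀⟩ := hK.interior_nonempty.mono interior_subset
  obtain ⟨h1, h2⟩ := Rat_affine hm hK (AffineEquiv.constVSub ℝ x₀)
  exact ⟨_, h1, ⟨x₀, hx₀, by show x₀ - x₀ = 0; rw [sub_self]⟩, h2⟩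

/-- a cone over `K` with apex `0` -/
theorem exists_cone (hm : 1 ≤ m) {K : Set (Fin m → ℝ)} (hK : ConvBody m K) :
    ∃ C : Set (Fin (m + 1) → ℝ), ConvBody (m + 1) C ∧ (0 : Fin (m + 1) → ℝ) ∈ C ∧
      Rat C = Rat K ∧ Gam C = Rat C := by
  obtain ⟨K', hK', h0, hR⟩ := join_zero hm hK
  have h0' : (0 : Fin 1 → ℝ) ∈ unitI := ⟨le_rfl, zero_le_one⟩
  have hP := fsum_convBody hK' unitI_convBody
  obtain ⟨hC, hRC⟩ := Rat_affine (by omega) hP
    (AffineEquiv.constVSub ℝ (Fin.append (0 : Fin m → ℝ) (fun _ : Fin 1 => (1 : ℝ))))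
  have h1 : Rat (fsum K' unitI) = Rat K' := by
    rw [Rat_fsum hm le_rfl hK' unitI_convBody h0 h0', unitI_rat.1, unitI_rat.2]
    ring
  refine ⟨_, hC, ?_, (hRC.trans h1).trans hR, ?_⟩
  · refine ⟨Fin.append (0 : Fin m → ℝ) (fun _ : Fin 1 => (1 : ℝ)), ?_, ?_⟩
    · refine subset_convexHull ℝ _ (Or.inr ⟨fun _ => 1, ⟨zero_le_one, le_rfl⟩, rfl⟩)
    · exact sub_self _
  · rw [hRC, h1]
    have hm1 : (m : ℝ) + 1 ≠ 0 := by positivity
    have e1 : (GM ((AffineEquiv.constVSub ℝ (Fin.append (0 : Fin m → ℝ)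
        (fun _ : Fin 1 => (1 : ℝ)))) '' fsum K' unitI)).det =
        ((m : ℝ) + 1) * (SM K').det := by
      rw [← Matrix.det_submatrix_equiv_self finSumFinEquiv, join_GM hm hK' h0,
        join_det (GM K') (fun i => ((m : ℝ) + 1) * cen K' i) ((m : ℝ) + 1) hm1, GM_eq K',
        add_sub_cancel_right]
    have hv := vol_fsum hm le_rfl hK' unitI_convBody h0 h0'
    rw [join_volI] at hv
    unfold Gam Rat
    rw [e1, join_vol, hv]
    simp

theorem exists_join (hm : 1 ≤ m) (hk : 1 ≤ k) {K : Set (Fin m → ℝ)} {L : Set (Fin k → ℝ)}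
    (hK : ConvBody m K) (hL : ConvBody k L) :
    ∃ J : Set (Fin (m + 1 + k) → ℝ), ConvBody (m + 1 + k) J ∧ Rat J = Rat K * Rat L := by
  obtain ⟨C, hC, hC0, hRC, hGC⟩ := exists_cone hm hK
  obtain ⟨L', hL', hL0, hRL⟩ := join_zero hk hL
  refine ⟨fsum C L', fsum_convBody hC hL', ?_⟩
  rw [Rat_fsum (by omega) hk hC hL' hC0 hL0, hGC, hRC, hRL]
  ring

/-- join powers followed by pyramids: for every `r ≥ 1` and `s` a body of dimension
`r (m+1) - 1 + s` with `Rat = (Rat K)^r` -/
theorem exists_power (hm : 1 ≤ m) {K : Set (Fin m → ℝ)} (hK : ConvBody m K) (r s : ℕ)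
    (hr : 1 ≤ r) (d : ℕ) (hd : d + 1 = r * (m + 1) + s) :
    ∃ J : Set (Fin d → ℝ), ConvBody d J ∧ Rat J = Rat K ^ r := by
  induction r, hr using Nat.le_induction generalizing d with
  | base =>
    induction s generalizing d with
    | zero =>
      obtain rfl : d = m := by omega
      exact ⟨K, hK, by rw [pow_one]⟩
    | succ s ih =>
      obtain ⟨d', rfl⟩ : ∃ d', d = d' + 1 := ⟨d - 1, by omega⟩
      obtain ⟨J, hJ, hRJ⟩ := ih d' (by omega)
      obtain ⟨C, hC, -, hRC, -⟩ := exists_cone (by omega) hJ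
      exact ⟨C, hC, hRC.trans hRJ⟩
  | succ r hr ih =>
    have h1 : (r + 1) * (m + 1) + s = (r * (m + 1) + s) + (m + 1) := by ring
    have h2 : m + 1 ≤ r * (m + 1) := Nat.le_mul_of_pos_left _ (by omega)
    obtain ⟨k, hk⟩ : ∃ k, k + 1 = r * (m + 1) + s := ⟨r * (m + 1) + s - 1, by omega⟩
    obtain rfl : d = m + 1 + k := by omega
    obtain ⟨J, hJ, hRJ⟩ := ih k hk
    obtain ⟨J', hJ', hRJ'⟩ := exists_join hm (by omega) hK hJ
    exact ⟨J', hJ', by rw [hRJ', hRJ, pow_succ, mul_comm]⟩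

end Vale.Agent.P254U
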