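import Vale.Agent.Lib.P254U.FS.Mom
import Vale.Agent.Lib.P254U.FS.Det

/-!
P254U/FS/KLS: the inequality of Kannan, Lovász and Simonovits for a convex body containing `0`, and
`0 < Gam K ≤ Rat K`.

`kls_linear`: for `u(x) = ξ · x` and `0 < s < 1`, `sK ⊆ K`, and the scaling gives
`∫_{K \ sK} u = (1 - s^(n+1)) ∫_K u`, `∫_{K \ sK} u² = (1 - s^(n+2)) ∫_K u²`,
`vol (K \ sK) = (1 - s^n) vol K`.  Cauchy-Schwarz on `K \ sK`:
`(1 - s^(n+1))² (∫_K u)² ≤ (1 - s^n)(1 - s^(n+2)) vol K ∫_K u²`.  Divide by `(1-s)²`, let `s → 1`.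
`SM_posDef`: `ξᵀ covM ξ = (1/V) ∫ (ξ·(x-c))² > 0` as `K` has interior points.
`kls`: `covM = mom2 - c cᵀ`, so the inequality
`(n+1)² (ξ·c)² ≤ (μ²-1) ξᵀ mom2 ξ` (`μ = n+1`) is `((n+1) ξ·c)² ≤ μ (μ-1) ξᵀ SM ξ`.
-/

open MeasureTheory Set

namespace Vale.Agent.P254U

variable {n : ℕ}

/-- the linear form `ξ · x` -/
theorem KLS_cont (ξ : Fin n → ℝ) : Continuous (fun x : Fin n → ℝ => ∑ i, ξ i * x i) := by
  fun_prop

theorem KLS_int_sq {K : Set (Fin n → ℝ)} (hK : IsCompact K) (ξ : Fin n → ℝ) (a b : ℝ) :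
    ∫ x in K, (a * (∑ i, ξ i * x i) - b) ^ 2 =
      a ^ 2 * (∫ x in K, (∑ i, ξ i * x i) ^ 2) - 2 * a * b * (∫ x in K, ∑ i, ξ i * x i) +
        b ^ 2 * (volume K).toReal := by
  have h1 : IntegrableOn (fun x : Fin n → ℝ => ∑ i, ξ i * x i) K :=
    (KLS_cont ξ).continuousOn.integrableOn_compact hK
  have h2 : IntegrableOn (fun x : Fin n → ℝ => (∑ i, ξ i * x i) ^ 2) K :=
    ((KLS_cont ξ).pow 2).continuousOn.integrableOn_compact hK
  have h3 : IntegrableOn (fun _ : Fin n → ℝ => b ^ 2) K :=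
    continuousOn_const.integrableOn_compact hK
  have e : (fun x : Fin n → ℝ => (a * (∑ i, ξ i * x i) - b) ^ 2) =
      fun x => a ^ 2 * (∑ i, ξ i * x i) ^ 2 - 2 * a * b * (∑ i, ξ i * x i) + b ^ 2 := by
    funext x
    ring
  have h4 : IntegrableOn (fun x : Fin n → ℝ => a ^ 2 * (∑ i, ξ i * x i) ^ 2 -
      2 * a * b * (∑ i, ξ i * x i)) K := (h2.const_mul (a ^ 2)).sub (h1.const_mul (2 * a * b))
  have h5 : IntegrableOn (fun x : Fin n → ℝ => a ^ 2 * (∑ i, ξ i * x i) ^ 2) K :=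
    h2.const_mul (a ^ 2)
  have h6 : IntegrableOn (fun x : Fin n → ℝ => 2 * a * b * (∑ i, ξ i * x i)) K :=
    h1.const_mul (2 * a * b)
  rw [e, integral_add h4 h3, integral_sub h5 h6, integral_const_mul,
    integral_const_mul, setIntegral_const, smul_eq_mul, Measure.real, mul_comm _ (b ^ 2)]

open scoped Pointwise in
theorem KLS_scale {K : Set (Fin n → ℝ)} (hK : ConvBody n K)
    (h0 : (0 : Fin n → ℝ) ∈ K) (ξ : Fin n → ℝ) (l s : ℝ) (hs : 0 < s) (hs1 : s < 1) :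
    s ^ n * (s ^ 2 * (∫ x in K, (∑ i, ξ i * x i) ^ 2) - 2 * s * l * (∫ x in K, ∑ i, ξ i * x i) +
        l ^ 2 * (volume K).toReal) ≤
      (∫ x in K, (∑ i, ξ i * x i) ^ 2) - 2 * l * (∫ x in K, ∑ i, ξ i * x i) +
        l ^ 2 * (volume K).toReal := by
  have hsub : s • K ⊆ K := by
    rintro _ ⟨x, hx, rfl⟩
    have h1 := hK.convex h0 hx (sub_nonneg.2 hs1.le) hs.le (by ring : (1 - s) + s = 1)
    simpa using h1
  have h1 := Measure.setIntegral_comp_smul_of_pos (volume : Measure (Fin n → ℝ))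
    (fun x : Fin n → ℝ => (1 * (∑ i, ξ i * x i) - l) ^ 2) K hs
  have h2 : (fun x : Fin n → ℝ => (1 * (∑ i, ξ i * (s • x) i) - l) ^ 2) =
      fun x => (s * (∑ i, ξ i * x i) - l) ^ 2 := by
    funext x
    have : (∑ i, ξ i * (s • x) i) = s * ∑ i, ξ i * x i := by
      rw [Finset.mul_sum]
      refine Finset.sum_congr rfl fun i _ => ?_
      simp only [Pi.smul_apply, smul_eq_mul]
      ring
    rw [this, one_mul]
  have h3 : ∫ x in s • K, (1 * (∑ i, ξ i * x i) - l) ^ 2 ≤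
      ∫ x in K, (1 * (∑ i, ξ i * x i) - l) ^ 2 := by
    refine setIntegral_mono_set ?_ (Filter.Eventually.of_forall fun x => sq_nonneg _)
      (Filter.Eventually.of_forall hsub)
    exact (((KLS_cont ξ).const_mul 1 |>.sub continuous_const).pow 2).continuousOn.integrableOn_compact
      hK.compact
  have h4 : Module.finrank ℝ (Fin n → ℝ) = n := by simp
  simp only [h2] at h1
  rw [KLS_int_sq hK.compact, h4, smul_eq_mul] at h1
  rw [KLS_int_sq hK.compact] at h3
  have hsn : 0 < s ^ n := pow_pos hs n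
  have h5 : s ^ n * (s ^ 2 * (∫ x in K, (∑ i, ξ i * x i) ^ 2) -
      2 * s * l * (∫ x in K, ∑ i, ξ i * x i) + l ^ 2 * (volume K).toReal) =
      ∫ x in s • K, (1 * (∑ i, ξ i * x i) - l) ^ 2 := by
    rw [h1, ← mul_assoc, mul_inv_cancel₀ hsn.ne', one_mul]
  rw [h5]
  refine h3.trans (le_of_eq ?_)
  ring

theorem KLS_quad {K : Set (Fin n → ℝ)} (hK : ConvBody n K)
    (h0 : (0 : Fin n → ℝ) ∈ K) (ξ : Fin n → ℝ) (l : ℝ) :
    0 ≤ ((n : ℝ) + 2) * (∫ x in K, (∑ i, ξ i * x i) ^ 2) -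
      2 * l * ((n : ℝ) + 1) * (∫ x in K, ∑ i, ξ i * x i) + l ^ 2 * n * (volume K).toReal := by
  obtain ⟨A, hA⟩ : ∃ A, A = ∫ x in K, ∑ i, ξ i * x i := ⟨_, rfl⟩
  obtain ⟨B, hB⟩ : ∃ B, B = ∫ x in K, (∑ i, ξ i * x i) ^ 2 := ⟨_, rfl⟩
  obtain ⟨V, hV⟩ : ∃ V, V = (volume K).toReal := ⟨_, rfl⟩
  rw [← hA, ← hB, ← hV]
  let H : ℝ → ℝ := fun s => B * (∑ i ∈ Finset.range (n + 2), s ^ i) -
    2 * l * A * (∑ i ∈ Finset.range (n + 1), s ^ i) + l ^ 2 * V * (∑ i ∈ Finset.range n, s ^ i)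
  have hH : Continuous H := by
    have h1 : ∀ k : ℕ, Continuous fun s : ℝ => ∑ i ∈ Finset.range k, s ^ i := fun k => by
      fun_prop
    exact (((h1 _).const_mul B).sub ((h1 _).const_mul (2 * l * A))).add
      ((h1 _).const_mul (l ^ 2 * V))
  have hpos : ∀ s ∈ Set.Ioo (0 : ℝ) 1, 0 ≤ H s := by
    intro s hs
    have h1 := KLS_scale hK h0 ξ l s hs.1 hs.2
    rw [← hA, ← hB, ← hV] at h1
    have h2 : 0 ≤ (1 - s) * H s := by
      have e2 := mul_neg_geom_sum s (n + 2)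
      have e1 := mul_neg_geom_sum s (n + 1)
      have e0 := mul_neg_geom_sum s n
      have e : (1 - s) * H s = B * (1 - s ^ (n + 2)) - 2 * l * A * (1 - s ^ (n + 1)) +
          l ^ 2 * V * (1 - s ^ n) := by
        rw [← e2, ← e1, ← e0]
        show (1 - s) * (B * (∑ i ∈ Finset.range (n + 2), s ^ i) -
          2 * l * A * (∑ i ∈ Finset.range (n + 1), s ^ i) +
          l ^ 2 * V * (∑ i ∈ Finset.range n, s ^ i)) = _
        ring
      rw [e, pow_succ, pow_succ]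
      nlinarith [h1]
    exact nonneg_of_mul_nonneg_right h2 (sub_pos.2 hs.2)
  have hlim : Filter.Tendsto H (nhdsWithin 1 (Set.Iio 1)) (nhds (H 1)) :=
    (hH.tendsto 1).mono_left nhdsWithin_le_nhds
  have h1 : 0 ≤ H 1 := by
    refine ge_of_tendsto hlim ?_
    have : Set.Ioo (0 : ℝ) 1 ∈ nhdsWithin (1 : ℝ) (Set.Iio 1) :=
      Ioo_mem_nhdsLT zero_lt_one
    filter_upwards [this] with s hs
    exact hpos s hs
  have h2 : H 1 = ((n : ℝ) + 2) * B - 2 * l * ((n : ℝ) + 1) * A + l ^ 2 * n * V := by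
    show B * (∑ i ∈ Finset.range (n + 2), (1 : ℝ) ^ i) -
      2 * l * A * (∑ i ∈ Finset.range (n + 1), (1 : ℝ) ^ i) +
      l ^ 2 * V * (∑ i ∈ Finset.range n, (1 : ℝ) ^ i) = _
    simp only [one_pow, Finset.sum_const, Finset.card_range, nsmul_eq_mul, mul_one]
    push_cast
    ring
  rwa [h2] at h1

theorem kls_linear (hn : 1 ≤ n) {K : Set (Fin n → ℝ)} (hK : ConvBody n K)
    (h0 : (0 : Fin n → ℝ) ∈ K) (ξ : Fin n → ℝ) :
    ((n : ℝ) + 1) ^ 2 * (∫ x in K, ∑ i, ξ i * x i) ^ 2 ≤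
      (n : ℝ) * ((n : ℝ) + 2) * (volume K).toReal * ∫ x in K, (∑ i, ξ i * x i) ^ 2 := by
  have hV := convBody_vol_pos hK
  have hn' : (0 : ℝ) < n := by exact_mod_cast hn
  have h := KLS_quad hK h0 ξ
    (((n : ℝ) + 1) * (∫ x in K, ∑ i, ξ i * x i) / (n * (volume K).toReal))
  obtain ⟨A, hA⟩ : ∃ A, A = ∫ x in K, ∑ i, ξ i * x i := ⟨_, rfl⟩
  obtain ⟨B, hB⟩ : ∃ B, B = ∫ x in K, (∑ i, ξ i * x i) ^ 2 := ⟨_, rfl⟩
  obtain ⟨V, hV'⟩ : ∃ V, V = (volume K).toReal := ⟨_, rfl⟩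
  rw [← hA, ← hB, ← hV'] at h ⊢
  rw [← hV'] at hV
  have hnV : 0 < (n : ℝ) * V := mul_pos hn' hV
  have e : ((n : ℝ) + 2) * B - 2 * (((n : ℝ) + 1) * A / (n * V)) * ((n : ℝ) + 1) * A +
      (((n : ℝ) + 1) * A / (n * V)) ^ 2 * n * V =
      (n * ((n : ℝ) + 2) * V * B - ((n : ℝ) + 1) ^ 2 * A ^ 2) / (n * V) := by
    field_simp
    ring
  rw [e] at h
  have h2 := (div_nonneg_iff.1 h)
  rcases h2 with h2 | h2
  · linarith [h2.1]
  · exact absurd h2.2 (not_le.2 hnV)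

/-- the quadratic form of the covariance matrix -/
theorem KLS_covM_form {K : Set (Fin n → ℝ)} (hK : ConvBody n K) (ξ : Fin n → ℝ) :
    ξ ⬝ᵥ (covM K).mulVec ξ =
      (∫ x in K, (∑ i, ξ i * (x i - cen K i)) ^ 2) / (volume K).toReal := by
  have h1 : (fun x : Fin n → ℝ => (∑ i, ξ i * (x i - cen K i)) ^ 2) =
      fun x => ∑ i, ∑ j, ξ i * ξ j * ((x i - cen K i) * (x j - cen K j)) := by
    funext x
    rw [sq, Finset.sum_mul_sum]
    refine Finset.sum_congr rfl fun i _ => Finset.sum_congr rfl fun j _ => ?_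
    ring
  have hint : ∀ i j : Fin n, IntegrableOn (fun x : Fin n → ℝ =>
      ξ i * ξ j * ((x i - cen K i) * (x j - cen K j))) K := by
    intro i j
    have hc : Continuous (fun x : Fin n → ℝ =>
      ξ i * ξ j * ((x i - cen K i) * (x j - cen K j))) := by fun_prop
    exact hc.continuousOn.integrableOn_compact hK.compact
  rw [h1, integral_finsetSum _ (fun i _ => integrable_finsetSum _ (fun j _ => hint i j)),
    Finset.sum_div]
  simp only [dotProduct, Matrix.mulVec]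
  refine Finset.sum_congr rfl fun i _ => ?_
  rw [integral_finsetSum _ (fun j _ => hint i j), Finset.sum_div, Finset.mul_sum]
  refine Finset.sum_congr rfl fun j _ => ?_
  rw [integral_const_mul]
  simp only [covM]
  ring

theorem KLS_SM_form {K : Set (Fin n → ℝ)} (hK : ConvBody n K) (ξ : Fin n → ℝ) :
    ξ ⬝ᵥ (SM K).mulVec ξ = ((n : ℝ) + 1) * ((n : ℝ) + 2) *
      ((∫ x in K, (∑ i, ξ i * (x i - cen K i)) ^ 2) / (volume K).toReal) := by
  have h1 : SM K = (((n : ℝ) + 1) * ((n : ℝ) + 2)) • covM K := by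
    ext i j
    simp only [SM, Matrix.smul_apply, smul_eq_mul]
  rw [h1, Matrix.smul_mulVec, dotProduct_smul, KLS_covM_form hK, smul_eq_mul]

theorem SM_posDef {K : Set (Fin n → ℝ)} (hK : ConvBody n K) : (SM K).PosDef := by
  have hV := convBody_vol_pos hK
  refine Matrix.PosDef.of_dotProduct_mulVec_pos ?_ ?_
  · ext i j
    simp only [Matrix.conjTranspose_apply, star_trivial, SM, covM]
    congr 3
    funext x
    ring
  · intro ξ hξ
    have hst : star ξ = ξ := by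
      funext i
      simp
    rw [hst, KLS_SM_form hK]
    have hpos : 0 < ∫ x in K, (∑ i, ξ i * (x i - cen K i)) ^ 2 := by
      have hc : Continuous (fun x : Fin n → ℝ => (∑ i, ξ i * (x i - cen K i)) ^ 2) := by
        fun_prop
      rw [setIntegral_pos_iff_support_of_nonneg_ae
        (Filter.Eventually.of_forall fun x => sq_nonneg _)
        (hc.continuousOn.integrableOn_compact hK.compact)]
      have hopen : IsOpen (Function.support
          (fun x : Fin n → ℝ => (∑ i, ξ i * (x i - cen K i)) ^ 2) ∩ interior K) :=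
        hc.isOpen_support.inter isOpen_interior
      have hne : (Function.support
          (fun x : Fin n → ℝ => (∑ i, ξ i * (x i - cen K i)) ^ 2) ∩ interior K).Nonempty := by
        by_contra hne
        rw [Set.not_nonempty_iff_eq_empty] at hne
        have hz : ∀ x ∈ interior K, ∑ i, ξ i * (x i - cen K i) = 0 := by
          intro x hx
          by_contra h
          have : x ∈ Function.support
              (fun x : Fin n → ℝ => (∑ i, ξ i * (x i - cen K i)) ^ 2) ∩ interior K :=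
            ⟨pow_ne_zero 2 h, hx⟩
          rw [hne] at this
          exact this
        obtain ⟨x0, hx0⟩ := hK.interior_nonempty
        have hcont : Filter.Tendsto (fun t : ℝ => x0 + t • ξ) (nhds 0) (nhds x0) := by
          have h1 : Continuous (fun t : ℝ => x0 + t • ξ) := by fun_prop
          have h2 := h1.tendsto 0
          simpa using h2
        have hev := hcont.eventually (isOpen_interior.mem_nhds hx0)
        have hev' : ∀ᶠ t in nhdsWithin (0 : ℝ) (Set.Ioi 0), x0 + t • ξ ∈ interior K :=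
          hev.filter_mono nhdsWithin_le_nhds
        obtain ⟨t, ht, ht0⟩ := (hev'.and self_mem_nhdsWithin).exists
        have ht0' : (0 : ℝ) < t := ht0
        have e1 := hz _ ht
        have e0 := hz _ hx0
        have e2 : ∑ i, ξ i * ((x0 + t • ξ) i - cen K i) =
            (∑ i, ξ i * (x0 i - cen K i)) + t * ∑ i, ξ i * ξ i := by
          rw [Finset.mul_sum, ← Finset.sum_add_distrib]
          refine Finset.sum_congr rfl fun i _ => ?_
          simp only [Pi.add_apply, Pi.smul_apply, smul_eq_mul]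
          ring
        rw [e2, e0, zero_add] at e1
        have e3 : ∑ i, ξ i * ξ i = 0 := by
          rcases mul_eq_zero.1 e1 with h | h
          · exact absurd h ht0'.ne'
          · exact h
        apply hξ
        funext i
        have e4 := (Finset.sum_eq_zero_iff_of_nonneg
          (fun i _ => mul_self_nonneg (ξ i))).1 e3 i (Finset.mem_univ i)
        exact mul_self_eq_zero.1 e4
      refine lt_of_lt_of_le (hopen.measure_pos volume hne) ?_
      exact measure_mono (Set.inter_subset_inter_right _ interior_subset)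
    have : (0 : ℝ) < (n : ℝ) + 1 := by positivity
    have : (0 : ℝ) < (n : ℝ) + 2 := by positivity
    positivity

theorem kls (hn : 1 ≤ n) {K : Set (Fin n → ℝ)} (hK : ConvBody n K)
    (h0 : (0 : Fin n → ℝ) ∈ K) (ξ : Fin n → ℝ) :
    (ξ ⬝ᵥ (fun i => ((n : ℝ) + 1) * cen K i)) ^ 2 ≤
      ((n : ℝ) + 1) * ((n : ℝ) + 1 - 1) * (ξ ⬝ᵥ (SM K).mulVec ξ) := by
  have hV := convBody_vol_pos hK
  have hn' : (0 : ℝ) < n := by exact_mod_cast hn
  have h := kls_linear hn hK h0 ξ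
  have hcen : ∑ i, ξ i * cen K i = (∫ x in K, ∑ i, ξ i * x i) / (volume K).toReal := by
    have hi : ∀ i : Fin n, IntegrableOn (fun x : Fin n → ℝ => ξ i * x i) K := by
      intro i
      have hc : Continuous (fun x : Fin n → ℝ => ξ i * x i) := by fun_prop
      exact hc.continuousOn.integrableOn_compact hK.compact
    rw [integral_finsetSum _ (fun i _ => hi i), Finset.sum_div]
    refine Finset.sum_congr rfl fun i _ => ?_
    rw [integral_const_mul]
    simp only [cen]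
    ring
  have hdot : ξ ⬝ᵥ (fun i => ((n : ℝ) + 1) * cen K i) = ((n : ℝ) + 1) * ∑ i, ξ i * cen K i := by
    simp only [dotProduct, Finset.mul_sum]
    refine Finset.sum_congr rfl fun i _ => ?_
    ring
  have hform : ∫ x in K, (∑ i, ξ i * (x i - cen K i)) ^ 2 =
      (∫ x in K, (∑ i, ξ i * x i) ^ 2) -
        2 * (∑ i, ξ i * cen K i) * (∫ x in K, ∑ i, ξ i * x i) +
        (∑ i, ξ i * cen K i) ^ 2 * (volume K).toReal := by
    have e : (fun x : Fin n → ℝ => (∑ i, ξ i * (x i - cen K i)) ^ 2) =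
        fun x => (1 * (∑ i, ξ i * x i) - ∑ i, ξ i * cen K i) ^ 2 := by
      funext x
      rw [one_mul, ← Finset.sum_sub_distrib]
      congr 1
      refine Finset.sum_congr rfl fun i _ => ?_
      ring
    rw [e, KLS_int_sq hK.compact]
    ring
  rw [hdot, KLS_SM_form hK, hform, hcen]
  obtain ⟨A, hA⟩ : ∃ A, A = ∫ x in K, ∑ i, ξ i * x i := ⟨_, rfl⟩
  obtain ⟨B, hB⟩ : ∃ B, B = ∫ x in K, (∑ i, ξ i * x i) ^ 2 := ⟨_, rfl⟩
  obtain ⟨V, hV'⟩ : ∃ V, V = (volume K).toReal := ⟨_, rfl⟩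
  rw [← hA, ← hB, ← hV'] at h ⊢
  rw [← hV'] at hV
  have e1 : ((n : ℝ) + 1) * ((n : ℝ) + 1 - 1) * (((n : ℝ) + 1) * ((n : ℝ) + 2) *
      ((B - 2 * (A / V) * A + (A / V) ^ 2 * V) / V)) =
      (((n : ℝ) + 1) ^ 2 * (n * ((n : ℝ) + 2) * V * B - n * ((n : ℝ) + 2) * A ^ 2)) / V ^ 2 := by
    field_simp
    ring
  have e2 : (((n : ℝ) + 1) * (A / V)) ^ 2 = (((n : ℝ) + 1) ^ 2 * A ^ 2) / V ^ 2 := by
    field_simp
  rw [e1, e2]
  refine div_le_div_of_nonneg_right ?_ (by positivity)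
  have hn1 : (0 : ℝ) ≤ ((n : ℝ) + 1) ^ 2 := by positivity
  refine mul_le_mul_of_nonneg_left ?_ hn1
  nlinarith [h]

/-- `GM = SM + (1/(n+1)) a aᵀ` with `a = (n+1) c` -/
theorem GM_eq (K : Set (Fin n → ℝ)) :
    GM K = SM K + (1 / ((n : ℝ) + 1)) •
      Matrix.vecMulVec (fun i => ((n : ℝ) + 1) * cen K i) (fun i => ((n : ℝ) + 1) * cen K i) := by
  ext i j
  have : ((n : ℝ) + 1) ≠ 0 := by positivity
  simp only [GM, SM, Matrix.add_apply, Matrix.smul_apply, Matrix.vecMulVec_apply, smul_eq_mul]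
  field_simp

theorem Gam_pos (hn : 1 ≤ n) {K : Set (Fin n → ℝ)} (hK : ConvBody n K)
    (h0 : (0 : Fin n → ℝ) ∈ K) : 0 < Gam K := by
  have hV := convBody_vol_pos hK
  have h := (det_compare (SM K) (SM_posDef hK) (fun i => ((n : ℝ) + 1) * cen K i) ((n : ℝ) + 1)
    (by linarith [Nat.cast_nonneg (α := ℝ) n]) (kls hn hK h0)).1
  rw [← GM_eq] at h
  unfold Gam
  have h2 : (0 : ℝ) < (n.factorial : ℝ) := by exact_mod_cast n.factorial_pos
  positivity

theorem Gam_le_Rat (hn : 1 ≤ n) {K : Set (Fin n → ℝ)} (hK : ConvBody n K)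
    (h0 : (0 : Fin n → ℝ) ∈ K) : Gam K ≤ Rat K := by
  have hV := convBody_vol_pos hK
  have h := (det_compare (SM K) (SM_posDef hK) (fun i => ((n : ℝ) + 1) * cen K i) ((n : ℝ) + 1)
    (by linarith [Nat.cast_nonneg (α := ℝ) n]) (kls hn hK h0)).2
  rw [← GM_eq] at h
  unfold Gam Rat
  exact div_le_div_of_nonneg_right h (by positivity)

theorem Rat_pos {K : Set (Fin n → ℝ)} (hK : ConvBody n K) : 0 < Rat K := by
  have hV := convBody_vol_pos hK
  have h := (SM_posDef hK).det_pos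
  unfold Rat
  have h2 : (0 : ℝ) < (n.factorial : ℝ) := by exact_mod_cast n.factorial_pos
  have h3 : (0 : ℝ) < (n : ℝ) + 1 := by positivity
  positivity

end Vale.Agent.P254U
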