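import Vale.Agent.Lib.P254U.FS.Defs

/-!
P254U/FS/Mem: elementary geometry of the free sum.

`mem_fsum`: `convexHull_union` (convexJoin), the two images are convex (images of convex sets under
the linear maps `a ↦ append a 0`, `b ↦ append 0 b`).
`interior`: both sets contain small pieces; e.g. `interior K ≠ ∅`, `interior L ≠ ∅` and
`{append (x/2) (y/2) : x ∈ K, y ∈ L} ⊆ fsum K L` (this uses no point `0`), an image of the product.
`fsum_slice`: for `ρ` the least `s ∈ [0,1]` with `a ∈ s K` (exists by compactness), because `0 ∈ L`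
and `L` is convex, `t L ⊆ t' L` for `0 ≤ t ≤ t'`.
-/

open MeasureTheory Set

namespace Vale.Agent.P254U

variable {m k n : ℕ}

private theorem mem_append_add (a a' : Fin m → ℝ) (b b' : Fin k → ℝ) :
    (Fin.append (a + a') (b + b') : Fin (m + k) → ℝ) = Fin.append a b + Fin.append a' b' := by
  funext i
  refine Fin.addCases (fun i => ?_) (fun i => ?_) i
  · simp only [Fin.append_left, Pi.add_apply]
  · simp only [Fin.append_right, Pi.add_apply]

private theorem mem_append_smul (c : ℝ) (a : Fin m → ℝ) (b : Fin k → ℝ) :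
    (Fin.append (c • a) (c • b) : Fin (m + k) → ℝ) = c • (Fin.append a b : Fin (m + k) → ℝ) := by
  funext i
  refine Fin.addCases (fun i => ?_) (fun i => ?_) i
  · simp only [Fin.append_left, Pi.smul_apply]
  · simp only [Fin.append_right, Pi.smul_apply]

private theorem mem_append_inj {a a' : Fin m → ℝ} {b b' : Fin k → ℝ}
    (h : (Fin.append a b : Fin (m + k) → ℝ) = Fin.append a' b') : a = a' ∧ b = b' := by
  have h1 : (Fin.appendEquiv (α := ℝ) m k) (a, b) = (Fin.appendEquiv (α := ℝ) m k) (a', b') := h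
  have h2 := (Fin.appendEquiv (α := ℝ) m k).injective h1
  exact ⟨congrArg Prod.fst h2, congrArg Prod.snd h2⟩

private theorem mem_split (z : Fin (m + k) → ℝ) :
    (Fin.append (fun i : Fin m => z (Fin.castAdd k i)) (fun j : Fin k => z (Fin.natAdd m j)) :
      Fin (m + k) → ℝ) = z := by
  funext i
  refine Fin.addCases (fun i => ?_) (fun i => ?_) i
  · simp only [Fin.append_left]
  · simp only [Fin.append_right]

private theorem mem_prod_image (K : Set (Fin m → ℝ)) (L : Set (Fin k → ℝ)) :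
    prodSet K L = (Fin.appendHomeomorph (X := ℝ) m k) '' (K ×ˢ L) := by
  ext z
  constructor
  · intro hz
    exact ⟨(fun i : Fin m => z (Fin.castAdd k i), fun j : Fin k => z (Fin.natAdd m j)),
      ⟨hz.1, hz.2⟩, mem_split z⟩
  · rintro ⟨⟨a, b⟩, ⟨ha, hb⟩, rfl⟩
    constructor
    · change (fun i : Fin m => (Fin.append a b : Fin (m + k) → ℝ) (Fin.castAdd k i)) ∈ K
      simp only [Fin.append_left]
      exact ha
    · change (fun j : Fin k => (Fin.append a b : Fin (m + k) → ℝ) (Fin.natAdd m j)) ∈ L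
      simp only [Fin.append_right]
      exact hb

theorem mem_fsum {K : Set (Fin m → ℝ)} {L : Set (Fin k → ℝ)} (hK : Convex ℝ K) (hL : Convex ℝ L)
    (hK0 : K.Nonempty) (hL0 : L.Nonempty) (a : Fin m → ℝ) (b : Fin k → ℝ) :
    (Fin.append a b : Fin (m + k) → ℝ) ∈ fsum K L ↔
      ∃ s : ℝ, 0 ≤ s ∧ s ≤ 1 ∧ (∃ x ∈ K, a = s • x) ∧ ∃ y ∈ L, b = (1 - s) • y := by
  let f : (Fin m → ℝ) →ₗ[ℝ] (Fin (m + k) → ℝ) :=
    { toFun := fun a => Fin.append a (0 : Fin k → ℝ)
      map_add' := fun a a' => by rw [← mem_append_add, add_zero]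
      map_smul' := fun c a => by
        rw [RingHom.id_apply, ← mem_append_smul, smul_zero] }
  let g : (Fin k → ℝ) →ₗ[ℝ] (Fin (m + k) → ℝ) :=
    { toFun := fun b => Fin.append (0 : Fin m → ℝ) b
      map_add' := fun a a' => by rw [← mem_append_add, add_zero]
      map_smul' := fun c a => by
        rw [RingHom.id_apply, ← mem_append_smul, smul_zero] }
  have hf : Convex ℝ (f '' K) := hK.linear_image f
  have hg : Convex ℝ (g '' L) := hL.linear_image g
  have h1 : fsum K L = convexJoin ℝ (f '' K) (g '' L) :=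
    hf.convexHull_union hg (hK0.image f) (hL0.image g)
  rw [h1, mem_convexJoin]
  have key : ∀ (s t : ℝ) (x : Fin m → ℝ) (y : Fin k → ℝ),
      s • f x + t • g y = (Fin.append (s • x) (t • y) : Fin (m + k) → ℝ) := by
    intro s t x y
    change s • (Fin.append x (0 : Fin k → ℝ) : Fin (m + k) → ℝ) +
      t • (Fin.append (0 : Fin m → ℝ) y : Fin (m + k) → ℝ) = _
    rw [← mem_append_smul, ← mem_append_smul, ← mem_append_add, smul_zero, smul_zero, add_zero,
      zero_add]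
  constructor
  · rintro ⟨_, ⟨x, hx, rfl⟩, _, ⟨y, hy, rfl⟩, s, t, hs, ht, hst, h2⟩
    rw [key] at h2
    obtain ⟨h3, h4⟩ := mem_append_inj h2
    have ht' : t = 1 - s := by linarith
    subst ht'
    exact ⟨s, hs, by linarith, ⟨x, hx, h3.symm⟩, y, hy, h4.symm⟩
  · rintro ⟨s, hs, hs1, ⟨x, hx, rfl⟩, y, hy, rfl⟩
    refine ⟨f x, ⟨x, hx, rfl⟩, g y, ⟨y, hy, rfl⟩, s, 1 - s, hs, by linarith, by ring, ?_⟩
    exact key s (1 - s) x y

private theorem mem_prod_convBody {K : Set (Fin m → ℝ)} {L : Set (Fin k → ℝ)} (hK : ConvBody m K)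
    (hL : ConvBody k L) : ConvBody (m + k) (prodSet K L) := by
  refine ⟨?_, ?_, ?_⟩
  · rw [mem_prod_image]
    exact (hK.compact.prod hL.compact).image (Fin.appendHomeomorph (X := ℝ) m k).continuous
  · intro z hz w hw s t hs ht hst
    refine ⟨?_, ?_⟩
    · exact hK.convex hz.1 hw.1 hs ht hst
    · exact hL.convex hz.2 hw.2 hs ht hst
  · rw [mem_prod_image, ← Homeomorph.image_interior, interior_prod_eq]
    exact (hK.interior_nonempty.prod hL.interior_nonempty).image _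

theorem fsum_convBody {K : Set (Fin m → ℝ)} {L : Set (Fin k → ℝ)} (hK : ConvBody m K)
    (hL : ConvBody k L) : ConvBody (m + k) (fsum K L) := by
  have hK0 : K.Nonempty := hK.interior_nonempty.mono interior_subset
  have hL0 : L.Nonempty := hL.interior_nonempty.mono interior_subset
  have hP := mem_prod_convBody hK hL
  refine ⟨?_, convex_convexHull ℝ _, ?_⟩
  · have h1 : fsum K L = (fun q : ℝ × ((Fin m → ℝ) × (Fin k → ℝ)) =>
        (Fin.append (q.1 • q.2.1) ((1 - q.1) • q.2.2) : Fin (m + k) → ℝ)) ''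
        (Set.Icc (0 : ℝ) 1 ×ˢ (K ×ˢ L)) := by
      ext z
      rw [← mem_split z, mem_fsum hK.convex hL.convex hK0 hL0]
      constructor
      · rintro ⟨s, hs, hs1, ⟨x, hx, h2⟩, y, hy, h3⟩
        refine ⟨(s, (x, y)), ⟨⟨hs, hs1⟩, hx, hy⟩, ?_⟩
        change (Fin.append (s • x) ((1 - s) • y) : Fin (m + k) → ℝ) = _
        rw [h2, h3]
      · rintro ⟨⟨s, x, y⟩, ⟨⟨hs, hs1⟩, hx, hy⟩, h2⟩
        obtain ⟨h3, h4⟩ := mem_append_inj h2
        exact ⟨s, hs, hs1, ⟨x, hx, h3.symm⟩, y, hy, h4.symm⟩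
    rw [h1]
    refine (isCompact_Icc.prod (hK.compact.prod hL.compact)).image ?_
    refine (Fin.continuous_append (X := ℝ) m k).comp (Continuous.prodMk ?_ ?_)
    · exact continuous_fst.smul (continuous_fst.comp continuous_snd)
    · exact (continuous_const.sub continuous_fst).smul (continuous_snd.comp continuous_snd)
  · have hhalf : (1 / 2 : ℝ) ≠ 0 := by norm_num
    have h2 : (Homeomorph.smulOfNeZero (1 / 2 : ℝ) hhalf) '' prodSet K L ⊆ fsum K L := by
      rintro _ ⟨z, hz, rfl⟩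
      change (1 / 2 : ℝ) • z ∈ fsum K L
      rw [← mem_split z, ← mem_append_smul, mem_fsum hK.convex hL.convex hK0 hL0]
      refine ⟨1 / 2, by norm_num, by norm_num, ⟨_, hz.1, rfl⟩, _, hz.2, ?_⟩
      norm_num
    have h3 : (interior ((Homeomorph.smulOfNeZero (1 / 2 : ℝ) hhalf) '' prodSet K L)).Nonempty := by
      rw [← Homeomorph.image_interior]
      exact hP.interior_nonempty.image _
    exact h3.mono (interior_mono h2)

theorem prod_convBody {K : Set (Fin m → ℝ)} {L : Set (Fin k → ℝ)} (hK : ConvBody m K)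
    (hL : ConvBody k L) : ConvBody (m + k) (prodSet K L) := mem_prod_convBody hK hL

/-- the gauge: the least `s ≥ 0` with `a ∈ s K` -/
noncomputable def rho (K : Set (Fin n → ℝ)) (a : Fin n → ℝ) : ℝ :=
  sInf {s : ℝ | 0 ≤ s ∧ ∃ x ∈ K, a = s • x}

theorem rho_nonneg (K : Set (Fin n → ℝ)) (a : Fin n → ℝ) : 0 ≤ rho K a :=
  Real.sInf_nonneg fun _ hs => hs.1

private theorem mem_bdd (K : Set (Fin n → ℝ)) (a : Fin n → ℝ) :
    BddBelow {s : ℝ | 0 ≤ s ∧ ∃ x ∈ K, a = s • x} := ⟨0, fun _ hs => hs.1⟩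

private theorem mem_shrink {K : Set (Fin n → ℝ)} (hK : Convex ℝ K) (h0 : (0 : Fin n → ℝ) ∈ K)
    {x : Fin n → ℝ} (hx : x ∈ K) {s t : ℝ} (hs : 0 ≤ s) (hst : s ≤ t) :
    ∃ y ∈ K, s • x = t • y := by
  rcases hs.eq_or_lt with rfl | hs0
  · exact ⟨0, h0, by rw [zero_smul, smul_zero]⟩
  · have ht : 0 < t := hs0.trans_le hst
    refine ⟨(s / t) • x, ?_, ?_⟩
    · have h1 : s / t ≤ 1 := (div_le_one ht).2 hst
      have h2 : 0 ≤ s / t := by positivity
      have h3 := hK h0 hx (sub_nonneg.2 h1) h2 (by ring)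
      rwa [smul_zero, zero_add] at h3
    · rw [smul_smul, mul_div_cancel₀ _ ht.ne']

private theorem mem_closed_proj {K : Set (Fin n → ℝ)} (hK : IsCompact K)
    {Z : Set ((Fin n → ℝ) × ℝ)} (hZ : IsClosed Z) :
    IsClosed (Prod.snd '' ((K ×ˢ (Set.univ : Set ℝ)) ∩ Z)) := by
  refine IsSeqClosed.isClosed ?_
  intro u b hu hb
  choose q hq hqu using hu
  have h1 : ∀ i, (q i).1 ∈ K := fun i => (hq i).1.1
  obtain ⟨x, hx, φ, hφ, h2⟩ := hK.tendsto_subseq h1
  refine ⟨(x, b), ⟨⟨hx, Set.mem_univ _⟩, ?_⟩, rfl⟩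
  have h3 : Filter.Tendsto (fun i => q (φ i)) Filter.atTop (nhds (x, b)) := by
    refine h2.prodMk_nhds ?_
    have h4 : (fun i => (q (φ i)).2) = u ∘ φ := funext fun i => hqu (φ i)
    change Filter.Tendsto (fun i => (q (φ i)).2) Filter.atTop (nhds b)
    rw [h4]
    exact hb.comp hφ.tendsto_atTop
  exact hZ.mem_of_tendsto h3 (Filter.Eventually.of_forall fun i => (hq (φ i)).2)

/-- for `a ∈ K` and `s ≥ 0`: `rho K a ≤ s` iff `a ∈ s K` -/
theorem rho_le_iff {K : Set (Fin n → ℝ)} (hK : ConvBody n K) (h0 : (0 : Fin n → ℝ) ∈ K)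
    {a : Fin n → ℝ} (ha : a ∈ K) {s : ℝ} (hs : 0 ≤ s) : rho K a ≤ s ↔ ∃ x ∈ K, a = s • x := by
  constructor
  · intro h
    have hne : {s : ℝ | 0 ≤ s ∧ ∃ x ∈ K, a = s • x}.Nonempty :=
      ⟨1, zero_le_one, a, ha, (one_smul ℝ a).symm⟩
    have hcl : IsClosed {s : ℝ | 0 ≤ s ∧ ∃ x ∈ K, a = s • x} := by
      have h1 : IsClosed {q : (Fin n → ℝ) × ℝ | 0 ≤ q.2 ∧ q.1 ∈ K ∧ a = q.2 • q.1} := by
        refine (isClosed_le continuous_const continuous_snd).inter
          ((hK.compact.isClosed.preimage continuous_fst).inter ?_)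
        exact isClosed_eq continuous_const (continuous_snd.smul continuous_fst)
      have h2 : {s : ℝ | 0 ≤ s ∧ ∃ x ∈ K, a = s • x} =
          Prod.snd '' ((K ×ˢ (Set.univ : Set ℝ)) ∩
            {q : (Fin n → ℝ) × ℝ | 0 ≤ q.2 ∧ q.1 ∈ K ∧ a = q.2 • q.1}) := by
        ext s
        constructor
        · rintro ⟨h3, x, hx, h4⟩
          exact ⟨(x, s), ⟨⟨hx, Set.mem_univ _⟩, h3, hx, h4⟩, rfl⟩
        · rintro ⟨⟨x, s'⟩, ⟨-, h3, hx, h4⟩, rfl⟩
          exact ⟨h3, x, hx, h4⟩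
      rw [h2]
      exact mem_closed_proj hK.compact h1
    have hmem : rho K a ∈ {s : ℝ | 0 ≤ s ∧ ∃ x ∈ K, a = s • x} :=
      hcl.csInf_mem hne (mem_bdd K a)
    obtain ⟨h3, x, hx, h4⟩ := hmem
    obtain ⟨y, hy, h5⟩ := mem_shrink hK.convex h0 hx h3 h
    exact ⟨y, hy, h4.trans h5⟩
  · intro h
    exact csInf_le (mem_bdd K a) ⟨hs, h⟩

theorem rho_le_one {K : Set (Fin n → ℝ)} (hK : ConvBody n K) (h0 : (0 : Fin n → ℝ) ∈ K)
    {a : Fin n → ℝ} (ha : a ∈ K) : rho K a ≤ 1 :=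
  (rho_le_iff hK h0 ha zero_le_one).2 ⟨a, ha, (one_smul ℝ a).symm⟩

/-- slices of the free sum -/
theorem fsum_slice {K : Set (Fin m → ℝ)} {L : Set (Fin k → ℝ)} (hK : ConvBody m K)
    (hL : ConvBody k L) (h0 : (0 : Fin m → ℝ) ∈ K) (h0' : (0 : Fin k → ℝ) ∈ L) (a : Fin m → ℝ) :
    {b : Fin k → ℝ | (Fin.append a b : Fin (m + k) → ℝ) ∈ fsum K L} =
      {b : Fin k → ℝ | a ∈ K ∧ ∃ y ∈ L, b = (1 - rho K a) • y} := by
  ext b
  rw [Set.mem_ofPred_eq, Set.mem_ofPred_eq, mem_fsum hK.convex hL.convex ⟨0, h0⟩ ⟨0, h0'⟩]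
  constructor
  · rintro ⟨s, hs, hs1, ⟨x, hx, h1⟩, y, hy, h2⟩
    have ha : a ∈ K := by
      obtain ⟨x', hx', h3⟩ := mem_shrink hK.convex h0 hx hs hs1
      rw [h1, h3, one_smul]
      exact hx'
    refine ⟨ha, ?_⟩
    have h4 : rho K a ≤ s := (rho_le_iff hK h0 ha hs).2 ⟨x, hx, h1⟩
    obtain ⟨y', hy', h5⟩ := mem_shrink hL.convex h0' hy (s := 1 - s) (t := 1 - rho K a)
      (by linarith) (by linarith)
    exact ⟨y', hy', h2.trans h5⟩
  · rintro ⟨ha, y, hy, h1⟩
    exact ⟨rho K a, rho_nonneg K a, rho_le_one hK h0 ha,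
      (rho_le_iff hK h0 ha (rho_nonneg K a)).1 le_rfl, y, hy, h1⟩

end Vale.Agent.P254U
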