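import Vale.Agent.Lib.P254U.FS.Int

/-!
P254U/FS/Mom: the matrices `SM` of a free sum and of a product.

With `N = m + k`, `fsum_integral` for the functions `1`, `x_i`, `x_i x_j` (and `y_i`, `y_i y_j`) gives
`vol (fsum) = m! k! / N! * vol K * vol L`,
`E x = (m+1)/(N+1) c_K`, `E x xᵀ = (m+1)(m+2)/((N+1)(N+2)) mom2 K`,
`E x yᵀ = (m+1)(k+1)/((N+1)(N+2)) c_K c_Lᵀ`, and the same for `y`.
`covM = mom2 - cen cenᵀ` (`covM_eq`, expand the square; all integrands are continuous on a compact
set).  The index type `Fin (m+k)` is treated through `finSumFinEquiv`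
(`finSumFinEquiv_apply_left`, `finSumFinEquiv_apply_right`).
-/

open MeasureTheory Set

namespace Vale.Agent.P254U

variable {m k n : ℕ}

theorem convBody_vol_pos {K : Set (Fin n → ℝ)} (hK : ConvBody n K) : 0 < (volume K).toReal :=
  ENNReal.toReal_pos (Measure.measure_pos_of_nonempty_interior volume hK.interior_nonempty).ne'
    hK.compact.measure_lt_top.ne

private theorem Mom_one (K : Set (Fin n → ℝ)) : ∫ _x in K, (1 : ℝ) = (volume K).toReal := by
  rw [setIntegral_const, smul_eq_mul, mul_one]
  rfl

theorem covM_eq {K : Set (Fin n → ℝ)} (hK : ConvBody n K) (i j : Fin n) :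
    covM K i j = mom2 K i j - cen K i * cen K j := by
  have hV := convBody_vol_pos hK
  have hI : ∀ f : (Fin n → ℝ) → ℝ, Continuous f → IntegrableOn f K volume := fun f hf =>
    hf.continuousOn.integrableOn_compact hK.compact
  have h1 : ∫ x in K, (x i - cen K i) * (x j - cen K j) =
      (∫ x in K, x i * x j) - cen K j * (∫ x in K, x i) - cen K i * (∫ x in K, x j) +
        cen K i * cen K j * (volume K).toReal := by
    rw [← Mom_one K, ← integral_const_mul, ← integral_const_mul, ← integral_const_mul,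
      ← integral_sub, ← integral_sub, ← integral_add]
    · refine integral_congr_ae (Filter.Eventually.of_forall fun x => ?_)
      ring
    · exact hI _ (by fun_prop)
    · exact hI _ (by fun_prop)
    · exact hI _ (by fun_prop)
    · exact hI _ (by fun_prop)
    · exact hI _ (by fun_prop)
    · exact hI _ (by fun_prop)
  have h2 : ∀ l, ∫ x in K, x l = cen K l * (volume K).toReal := by
    intro l
    unfold cen
    field_simp
  unfold covM mom2
  rw [h1, h2 i, h2 j]
  field_simp
  ring

private theorem Mom_hom0 : Hom (n := n) 0 (fun _ => 1) := fun s x => by simp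

private theorem Mom_hom1 (i : Fin n) : Hom (n := n) 1 (fun x => x i) := fun s x => by simp

private theorem Mom_hom2 (i j : Fin n) : Hom (n := n) 2 (fun x => x i * x j) := fun s x => by
  simp only [Pi.smul_apply, smul_eq_mul]
  ring

theorem vol_fsum (hm : 1 ≤ m) (hk : 1 ≤ k) {K : Set (Fin m → ℝ)} {L : Set (Fin k → ℝ)}
    (hK : ConvBody m K) (hL : ConvBody k L) (h0 : (0 : Fin m → ℝ) ∈ K)
    (h0' : (0 : Fin k → ℝ) ∈ L) :
    ((m + k).factorial : ℝ) * (volume (fsum K L)).toReal =
      ((m.factorial : ℝ) * (volume K).toReal) * ((k.factorial : ℝ) * (volume L).toReal) := by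
  have h := fsum_integral hm hk hK hL h0 h0' (Mom_hom0 (n := m)) continuous_const
    (Mom_hom0 (n := k)) continuous_const
  simp only [mul_one, add_zero, Mom_one] at h
  rw [h]
  have : ((m + k).factorial : ℝ) ≠ 0 := by positivity
  field_simp

/-- normalised integrals over the free sum -/
private theorem Mom_avg (hm : 1 ≤ m) (hk : 1 ≤ k) {K : Set (Fin m → ℝ)} {L : Set (Fin k → ℝ)}
    (hK : ConvBody m K) (hL : ConvBody k L) (h0 : (0 : Fin m → ℝ) ∈ K)
    (h0' : (0 : Fin k → ℝ) ∈ L) {d e : ℕ} {f : (Fin m → ℝ) → ℝ} {g : (Fin k → ℝ) → ℝ}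
    (hf : Hom d f) (hfc : Continuous f) (hg : Hom e g) (hgc : Continuous g) :
    (∫ z in fsum K L, f (fun i => z (Fin.castAdd k i)) * g (fun j => z (Fin.natAdd m j))) /
      (volume (fsum K L)).toReal =
      (((m + d).factorial : ℝ) * ((k + e).factorial : ℝ) * ((m + k).factorial : ℝ)) /
        (((m + d + (k + e)).factorial : ℝ) * (m.factorial : ℝ) * (k.factorial : ℝ)) *
        ((∫ x in K, f x) / (volume K).toReal) * ((∫ y in L, g y) / (volume L).toReal) := by
  have hVK := convBody_vol_pos hK
  have hVL := convBody_vol_pos hL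
  have h1 := vol_fsum hm hk hK hL h0 h0'
  have hN : ((m + k).factorial : ℝ) ≠ 0 := by positivity
  have h2 : (volume (fsum K L)).toReal = ((m.factorial : ℝ) * (volume K).toReal) *
      ((k.factorial : ℝ) * (volume L).toReal) / ((m + k).factorial : ℝ) := by
    field_simp
    linarith
  rw [fsum_integral hm hk hK hL h0 h0' hf hfc hg hgc, h2]
  have hm' : (m.factorial : ℝ) ≠ 0 := by positivity
  have hk' : (k.factorial : ℝ) ≠ 0 := by positivity
  have hD : ((m + d + (k + e)).factorial : ℝ) ≠ 0 := by positivity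
  field_simp

/-- the vector `((m+1) c_K, (k+1) c_L)` -/
noncomputable def avec (K : Set (Fin m → ℝ)) (L : Set (Fin k → ℝ)) : Fin m ⊕ Fin k → ℝ :=
  Sum.elim (fun i => ((m : ℝ) + 1) * cen K i) (fun j => ((k : ℝ) + 1) * cen L j)

private theorem Mom_self {K : Set (Fin n → ℝ)} (hK : ConvBody n K) :
    (∫ _x in K, (1 : ℝ)) / (volume K).toReal = 1 := by
  rw [Mom_one]
  exact div_self (convBody_vol_pos hK).ne'

private theorem Mom_fac1 (a : ℕ) : ((a + 1).factorial : ℝ) = ((a : ℝ) + 1) * (a.factorial : ℝ) := by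
  rw [Nat.factorial_succ]
  push_cast
  ring

private theorem Mom_fac2 (a : ℕ) : ((a + 2).factorial : ℝ) =
    ((a : ℝ) + 2) * (((a : ℝ) + 1) * (a.factorial : ℝ)) := by
  rw [Nat.factorial_succ, Nat.factorial_succ]
  push_cast
  ring

theorem SM_fsum (hm : 1 ≤ m) (hk : 1 ≤ k) {K : Set (Fin m → ℝ)} {L : Set (Fin k → ℝ)}
    (hK : ConvBody m K) (hL : ConvBody k L) (h0 : (0 : Fin m → ℝ) ∈ K)
    (h0' : (0 : Fin k → ℝ) ∈ L) (i j : Fin m ⊕ Fin k) :
    SM (fsum K L) (finSumFinEquiv i) (finSumFinEquiv j) =
      Matrix.fromBlocks (GM K) 0 0 (GM L) i j -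
        1 / ((m : ℝ) + k + 1) * (avec K L i * avec K L j) := by
  have hF := fsum_convBody hK hL
  have hm' : (m.factorial : ℝ) ≠ 0 := by positivity
  have hk' : (k.factorial : ℝ) ≠ 0 := by positivity
  have hN : ((m + k).factorial : ℝ) ≠ 0 := by positivity
  have hN1 : (m : ℝ) + k + 1 ≠ 0 := by positivity
  have hN2 : (m : ℝ) + k + 2 ≠ 0 := by positivity
  have hc1 : ∀ i : Fin m, cen (fsum K L) (Fin.castAdd k i) =
      ((m : ℝ) + 1) / ((m : ℝ) + k + 1) * cen K i := by
    intro i
    have h := Mom_avg hm hk hK hL h0 h0' (Mom_hom1 i) (continuous_apply i)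
      (Mom_hom0 (n := k)) continuous_const
    simp only [mul_one, Mom_self hL, add_zero] at h
    have e1 : m + 1 + k = (m + k) + 1 := by omega
    rw [e1, Mom_fac1, Mom_fac1] at h
    unfold cen
    rw [h]
    push_cast
    field_simp
  have hc2 : ∀ j : Fin k, cen (fsum K L) (Fin.natAdd m j) =
      ((k : ℝ) + 1) / ((m : ℝ) + k + 1) * cen L j := by
    intro j
    have h := Mom_avg hm hk hK hL h0 h0' (Mom_hom0 (n := m)) continuous_const
      (Mom_hom1 j) (continuous_apply j)
    simp only [one_mul, mul_one, Mom_self hK, add_zero] at h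
    have e1 : m + (k + 1) = (m + k) + 1 := by omega
    rw [e1, Mom_fac1, Mom_fac1] at h
    unfold cen
    rw [h]
    push_cast
    field_simp
  have hm11 : ∀ i j : Fin m, mom2 (fsum K L) (Fin.castAdd k i) (Fin.castAdd k j) =
      (((m : ℝ) + 1) * ((m : ℝ) + 2)) / (((m : ℝ) + k + 1) * ((m : ℝ) + k + 2)) *
        mom2 K i j := by
    intro i j
    have h := Mom_avg hm hk hK hL h0 h0' (Mom_hom2 i j)
      ((continuous_apply i).mul (continuous_apply j)) (Mom_hom0 (n := k)) continuous_const
    simp only [mul_one, Mom_self hL, add_zero] at h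
    have e1 : m + 2 + k = (m + k) + 2 := by omega
    rw [e1, Mom_fac2, Mom_fac2] at h
    unfold mom2
    rw [h]
    push_cast
    field_simp
  have hm22 : ∀ i j : Fin k, mom2 (fsum K L) (Fin.natAdd m i) (Fin.natAdd m j) =
      (((k : ℝ) + 1) * ((k : ℝ) + 2)) / (((m : ℝ) + k + 1) * ((m : ℝ) + k + 2)) *
        mom2 L i j := by
    intro i j
    have h := Mom_avg hm hk hK hL h0 h0' (Mom_hom0 (n := m)) continuous_const
      (Mom_hom2 i j) ((continuous_apply i).mul (continuous_apply j))
    simp only [one_mul, mul_one, Mom_self hK, add_zero] at h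
    have e1 : m + (k + 2) = (m + k) + 2 := by omega
    rw [e1, Mom_fac2, Mom_fac2] at h
    unfold mom2
    rw [h]
    push_cast
    field_simp
  have hm12 : ∀ (i : Fin m) (j : Fin k), mom2 (fsum K L) (Fin.castAdd k i) (Fin.natAdd m j) =
      (((m : ℝ) + 1) * ((k : ℝ) + 1)) / (((m : ℝ) + k + 1) * ((m : ℝ) + k + 2)) *
        (cen K i * cen L j) := by
    intro i j
    have h := Mom_avg hm hk hK hL h0 h0' (Mom_hom1 i) (continuous_apply i)
      (Mom_hom1 j) (continuous_apply j)
    have e1 : m + 1 + (k + 1) = (m + k) + 2 := by omega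
    rw [e1, Mom_fac2, Mom_fac1, Mom_fac1] at h
    unfold mom2 cen
    rw [h]
    push_cast
    field_simp
  have hm21 : ∀ (i : Fin m) (j : Fin k), mom2 (fsum K L) (Fin.natAdd m j) (Fin.castAdd k i) =
      mom2 (fsum K L) (Fin.castAdd k i) (Fin.natAdd m j) := by
    intro i j
    unfold mom2
    simp only [mul_comm]
  unfold SM
  rw [covM_eq hF]
  rcases i with i | i <;> rcases j with j | j
  · rw [finSumFinEquiv_apply_left, finSumFinEquiv_apply_left, hm11, hc1, hc1,
      Matrix.fromBlocks_apply₁₁]
    unfold GM avec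
    rw [covM_eq hK]
    simp only [Sum.elim_inl]
    push_cast
    field_simp
    ring
  · rw [finSumFinEquiv_apply_left, finSumFinEquiv_apply_right, hm12, hc1, hc2,
      Matrix.fromBlocks_apply₁₂]
    unfold avec
    simp only [Sum.elim_inl, Sum.elim_inr, Matrix.zero_apply]
    push_cast
    field_simp
    ring
  · rw [finSumFinEquiv_apply_left, finSumFinEquiv_apply_right, hm21, hm12, hc1, hc2,
      Matrix.fromBlocks_apply₂₁]
    unfold avec
    simp only [Sum.elim_inl, Sum.elim_inr, Matrix.zero_apply]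
    push_cast
    field_simp
    ring
  · rw [finSumFinEquiv_apply_right, finSumFinEquiv_apply_right, hm22, hc2, hc2,
      Matrix.fromBlocks_apply₂₂]
    unfold GM avec
    rw [covM_eq hL]
    simp only [Sum.elim_inr]
    push_cast
    field_simp
    ring

theorem vol_prod {K : Set (Fin m → ℝ)} {L : Set (Fin k → ℝ)}
    (hK : ConvBody m K) (hL : ConvBody k L) :
    (volume (prodSet K L)).toReal = (volume K).toReal * (volume L).toReal := by
  have h := prod_integral hK hL (f := fun _ => 1) (g := fun _ => 1) continuous_const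
    continuous_const
  simp only [mul_one, Mom_one] at h
  exact h

private theorem Mom_pavg {K : Set (Fin m → ℝ)} {L : Set (Fin k → ℝ)}
    (hK : ConvBody m K) (hL : ConvBody k L) {f : (Fin m → ℝ) → ℝ} {g : (Fin k → ℝ) → ℝ}
    (hfc : Continuous f) (hgc : Continuous g) :
    (∫ z in prodSet K L, f (fun i => z (Fin.castAdd k i)) * g (fun j => z (Fin.natAdd m j))) /
      (volume (prodSet K L)).toReal =
      ((∫ x in K, f x) / (volume K).toReal) * ((∫ y in L, g y) / (volume L).toReal) := by
  have hVK := convBody_vol_pos hK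
  have hVL := convBody_vol_pos hL
  rw [prod_integral hK hL hfc hgc, vol_prod hK hL]
  field_simp

theorem covM_prod {K : Set (Fin m → ℝ)} {L : Set (Fin k → ℝ)}
    (hK : ConvBody m K) (hL : ConvBody k L) (i j : Fin m ⊕ Fin k) :
    covM (prodSet K L) (finSumFinEquiv i) (finSumFinEquiv j) =
      Matrix.fromBlocks (covM K) 0 0 (covM L) i j := by
  have hP := prod_convBody hK hL
  have hc1 : ∀ i : Fin m, cen (prodSet K L) (Fin.castAdd k i) = cen K i := by
    intro i
    have h := Mom_pavg hK hL (f := fun x => x i) (g := fun _ => 1) (continuous_apply i)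
      continuous_const
    simp only [mul_one, Mom_self hL] at h
    exact h
  have hc2 : ∀ j : Fin k, cen (prodSet K L) (Fin.natAdd m j) = cen L j := by
    intro j
    have h := Mom_pavg hK hL (f := fun _ => 1) (g := fun y => y j) continuous_const
      (continuous_apply j)
    simp only [one_mul, Mom_self hK] at h
    exact h
  have hm11 : ∀ i j : Fin m, mom2 (prodSet K L) (Fin.castAdd k i) (Fin.castAdd k j) =
      mom2 K i j := by
    intro i j
    have h := Mom_pavg hK hL (f := fun x => x i * x j) (g := fun _ => 1)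
      ((continuous_apply i).mul (continuous_apply j)) continuous_const
    simp only [mul_one, Mom_self hL] at h
    exact h
  have hm22 : ∀ i j : Fin k, mom2 (prodSet K L) (Fin.natAdd m i) (Fin.natAdd m j) =
      mom2 L i j := by
    intro i j
    have h := Mom_pavg hK hL (f := fun _ => 1) (g := fun y => y i * y j) continuous_const
      ((continuous_apply i).mul (continuous_apply j))
    simp only [one_mul, Mom_self hK] at h
    exact h
  have hm12 : ∀ (i : Fin m) (j : Fin k), mom2 (prodSet K L) (Fin.castAdd k i) (Fin.natAdd m j) =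
      cen K i * cen L j := by
    intro i j
    exact Mom_pavg hK hL (f := fun x => x i) (g := fun y => y j) (continuous_apply i)
      (continuous_apply j)
  have hm21 : ∀ (i : Fin m) (j : Fin k), mom2 (prodSet K L) (Fin.natAdd m j) (Fin.castAdd k i) =
      mom2 (prodSet K L) (Fin.castAdd k i) (Fin.natAdd m j) := by
    intro i j
    unfold mom2
    simp only [mul_comm]
  rw [covM_eq hP]
  rcases i with i | i <;> rcases j with j | j
  · rw [finSumFinEquiv_apply_left, finSumFinEquiv_apply_left, hm11, hc1, hc1,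
      Matrix.fromBlocks_apply₁₁, covM_eq hK]
  · rw [finSumFinEquiv_apply_left, finSumFinEquiv_apply_right, hm12, hc1, hc2,
      Matrix.fromBlocks_apply₁₂, sub_self, Matrix.zero_apply]
  · rw [finSumFinEquiv_apply_left, finSumFinEquiv_apply_right, hm21, hm12, hc1, hc2,
      Matrix.fromBlocks_apply₂₁, mul_comm, sub_self, Matrix.zero_apply]
  · rw [finSumFinEquiv_apply_right, finSumFinEquiv_apply_right, hm22, hc2, hc2,
      Matrix.fromBlocks_apply₂₂, covM_eq hL]

end Vale.Agent.P254U
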