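import Vale.Agent.Lib.P254U.FS.AffSIC

/-!
P254U/FS/Radon: polytopes with at most `n + 2` vertices.

`sic_radon`: `E₁ = span (range u)` has dimension at most `m` (`m + 1` vectors and, because
`0 ∈ conv (range u)`, a nontrivial linear relation), `E₂ = span (range w)` has dimension at most `k`;
`E₁ + E₂ = ℝ^(m+k)` (the hull of the union contains `0` and has interior points), so both dimensions
are attained and `E₁ ⊕ E₂ = ℝ^(m+k)`.  Choose linear isomorphisms `A : ℝ^m ≃ E₁`, `B : ℝ^k ≃ E₂` and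
`T : ℝ^(m+k) ≃ ℝ^(m+k)`, `T (append a b) = A a + B b`.  Then `conv (range u ∪ range w)` is the image
under `T` of `fsum K L`, `K = conv (A⁻¹ u)`, `L = conv (B⁻¹ w)`.  `K` is the hull of `m + 1` points
spanning `ℝ^m` with `0` in the hull, so its affine span is everything and the points are affinely
independent.  Use `sic_simplex`, `sic_fsum`, `sic_affine`.
-/

open MeasureTheory Set

namespace Vale.Agent.P254U

variable {m k n : ℕ}

/-- the dimension of one part -/
theorem Radon_dim {d N : ℕ} {ι : Type} [Fintype ι] (hι : Fintype.card ι = d + 1)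
    (u : ι → (Fin N → ℝ)) (h0 : (0 : Fin N → ℝ) ∈ convexHull ℝ (range u)) :
    Module.finrank ℝ (Submodule.span ℝ (range u)) ≤ d := by
  have hle : (range u).finrank ℝ ≤ Fintype.card ι := finrank_range_le_card u
  have hni : ¬ LinearIndependent ℝ u := by
    intro hli
    rw [convexHull_range_eq_exists_affineCombination] at h0
    obtain ⟨s, c, hc0, hc1, hc⟩ := h0
    rw [s.affineCombination_eq_linear_combination _ _ hc1] at hc
    have h1 := linearIndependent_iff'.1 hli s c hc
    rw [Finset.sum_eq_zero h1] at hc1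
    exact zero_ne_one hc1
  have hne : (range u).finrank ℝ ≠ Fintype.card ι := fun h =>
    hni (linearIndependent_iff_card_eq_finrank_span.2 h.symm)
  have h2 : (range u).finrank ℝ = Module.finrank ℝ (Submodule.span ℝ (range u)) := rfl
  omega

/-- one of the two parts -/
theorem Radon_part {d N : ℕ} {ι : Type} [Fintype ι] (hι : Fintype.card ι = d + 1)
    (u : ι → (Fin N → ℝ)) (E : Submodule ℝ (Fin N → ℝ)) (hE : E = Submodule.span ℝ (range u))
    (A : (Fin d → ℝ) ≃ₗ[ℝ] E) (h0 : (0 : Fin N → ℝ) ∈ convexHull ℝ (range u)) :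
    ∃ K : Set (Fin d → ℝ), IsSimplex K ∧ (0 : Fin d → ℝ) ∈ K ∧
      (fun a : Fin d → ℝ => (A a : Fin N → ℝ)) '' K = convexHull ℝ (range u) := by
  have hmem : ∀ i, u i ∈ E := fun i => hE ▸ Submodule.subset_span ⟨i, rfl⟩
  obtain ⟨u', hu'⟩ : ∃ u' : ι → (Fin d → ℝ), ∀ i, (A (u' i) : Fin N → ℝ) = u i := by
    refine ⟨fun i => A.symm ⟨u i, hmem i⟩, fun i => ?_⟩
    rw [LinearEquiv.apply_symm_apply]
  let A' : (Fin d → ℝ) →ₗ[ℝ] (Fin N → ℝ) := E.subtype.comp A.toLinearMap
  have hA' : ∀ a, A' a = (A a : Fin N → ℝ) := fun a => rfl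
  have hinj : Function.Injective A' := by
    intro a b hab
    rw [hA', hA'] at hab
    exact A.injective (Subtype.ext hab)
  have him : A' '' range u' = range u := by
    ext z
    constructor
    · rintro ⟨_, ⟨i, rfl⟩, rfl⟩
      exact ⟨i, (hu' i).symm⟩
    · rintro ⟨i, rfl⟩
      exact ⟨u' i, ⟨i, rfl⟩, hu' i⟩
  have hK : A' '' convexHull ℝ (range u') = convexHull ℝ (range u) := by
    rw [LinearMap.image_convexHull, him]
  have h0' : (0 : Fin d → ℝ) ∈ convexHull ℝ (range u') := by
    rw [← hK] at h0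
    obtain ⟨a, ha, ha0⟩ := h0
    have h1 : a = 0 := hinj (by rw [ha0, map_zero])
    rwa [h1] at ha
  have hspan : Submodule.span ℝ (range u') = ⊤ := by
    rw [eq_top_iff]
    intro a _
    have h1 : A' a ∈ Submodule.span ℝ (range u) := by
      rw [← hE]
      exact (A a).2
    rw [← him, ← Submodule.map_span] at h1
    obtain ⟨b, hb, hab⟩ := h1
    rw [← hinj hab]
    exact hb
  have haff : affineSpan ℝ (range u') = ⊤ := by
    have h1 : (0 : Fin d → ℝ) ∈ affineSpan ℝ (range u') := convexHull_subset_affineSpan _ h0'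
    rw [← AffineSubspace.direction_eq_top_iff_of_nonempty ⟨0, h1⟩, eq_top_iff, ← hspan,
      Submodule.span_le]
    rintro _ ⟨i, rfl⟩
    have h2 : u' i ∈ affineSpan ℝ (range u') := subset_affineSpan ℝ _ ⟨i, rfl⟩
    have h3 := AffineSubspace.vsub_mem_direction h2 h1
    simpa using h3
  have hint : (interior (convexHull ℝ (range u'))).Nonempty :=
    interior_convexHull_nonempty_iff_affineSpan_eq_top.2 haff
  have hind : AffineIndependent ℝ u' := affineIndependent_of_interior hι u' hint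
  refine ⟨convexHull ℝ (range u'), ?_, h0', hK⟩
  let e : Fin (d + 1) ≃ ι := (Fintype.equivFinOfCardEq hι).symm
  refine ⟨u' ∘ e, hind.comp_embedding e.toEmbedding, ?_⟩
  rw [e.surjective.range_comp]

theorem sic_radon (hm : 1 ≤ m) (hk : 1 ≤ k) {ι κ : Type} [Fintype ι] [Fintype κ]
    (hι : Fintype.card ι = m + 1) (hκ : Fintype.card κ = k + 1)
    (u : ι → (Fin (m + k) → ℝ)) (w : κ → (Fin (m + k) → ℝ))
    (hu : (0 : Fin (m + k) → ℝ) ∈ convexHull ℝ (range u))
    (hw : (0 : Fin (m + k) → ℝ) ∈ convexHull ℝ (range w))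
    (hint : (interior (convexHull ℝ (range u ∪ range w))).Nonempty) :
    SIC (convexHull ℝ (range u ∪ range w)) := by
  obtain ⟨E₁, hE₁⟩ : ∃ E : Submodule ℝ (Fin (m + k) → ℝ), E = Submodule.span ℝ (range u) :=
    ⟨_, rfl⟩
  obtain ⟨E₂, hE₂⟩ : ∃ E : Submodule ℝ (Fin (m + k) → ℝ), E = Submodule.span ℝ (range w) :=
    ⟨_, rfl⟩
  have d1 : Module.finrank ℝ E₁ ≤ m := by
    rw [hE₁]
    exact Radon_dim hι u hu
  have d2 : Module.finrank ℝ E₂ ≤ k := by
    rw [hE₂]
    exact Radon_dim hκ w hw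
  have htop : E₁ ⊔ E₂ = ⊤ := by
    refine Submodule.eq_top_of_nonempty_interior' _ (hint.mono (interior_mono ?_))
    refine convexHull_min ?_ (Submodule.convex _)
    rintro z (⟨i, rfl⟩ | ⟨i, rfl⟩)
    · refine Submodule.mem_sup_left ?_
      rw [hE₁]
      exact Submodule.subset_span ⟨i, rfl⟩
    · refine Submodule.mem_sup_right ?_
      rw [hE₂]
      exact Submodule.subset_span ⟨i, rfl⟩
  have hsum := Submodule.finrank_sup_add_finrank_inf_eq E₁ E₂
  rw [htop, finrank_top, Module.finrank_fin_fun] at hsum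
  have e1 : Module.finrank ℝ E₁ = m := by omega
  have e2 : Module.finrank ℝ E₂ = k := by omega
  have hinf : E₁ ⊓ E₂ = ⊥ := by
    rw [← Submodule.finrank_eq_zero (R := ℝ)]
    omega
  let A : (Fin m → ℝ) ≃ₗ[ℝ] E₁ := LinearEquiv.ofFinrankEq _ _ (by rw [Module.finrank_fin_fun, e1])
  let B : (Fin k → ℝ) ≃ₗ[ℝ] E₂ := LinearEquiv.ofFinrankEq _ _ (by rw [Module.finrank_fin_fun, e2])
  obtain ⟨K, hKs, hK0, hKi⟩ := Radon_part hι u E₁ hE₁ A hu
  obtain ⟨L, hLs, hL0, hLi⟩ := Radon_part hκ w E₂ hE₂ B hw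
  have hKb : ConvBody m K := hKs.convBody
  have hLb : ConvBody k L := hLs.convBody
  have hS : SIC (fsum K L) :=
    sic_fsum hm hk hKb hLb hK0 hL0 (sic_simplex hm hKs) (sic_simplex hk hLs)
  -- the linear equivalence
  let T₀ : (Fin (m + k) → ℝ) →ₗ[ℝ] (Fin (m + k) → ℝ) :=
    (E₁.subtype.comp A.toLinearMap).comp (LinearMap.funLeft ℝ ℝ (Fin.castAdd k)) +
      (E₂.subtype.comp B.toLinearMap).comp (LinearMap.funLeft ℝ ℝ (Fin.natAdd m))
  have hT₀ : ∀ z, T₀ z = (A (fun i => z (Fin.castAdd k i)) : Fin (m + k) → ℝ) +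
      (B (fun i => z (Fin.natAdd m i)) : Fin (m + k) → ℝ) := fun z => rfl
  have hinj : Function.Injective T₀ := by
    rw [injective_iff_map_eq_zero]
    intro z hz
    rw [hT₀] at hz
    have h1 : (A (fun i => z (Fin.castAdd k i)) : Fin (m + k) → ℝ) =
        -(B (fun i => z (Fin.natAdd m i)) : Fin (m + k) → ℝ) := eq_neg_of_add_eq_zero_left hz
    have h2 : (A (fun i => z (Fin.castAdd k i)) : Fin (m + k) → ℝ) ∈ E₁ ⊓ E₂ := by
      refine ⟨(A _).2, ?_⟩
      rw [SetLike.mem_coe, h1]
      exact E₂.neg_mem (B _).2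
    rw [hinf, Submodule.mem_bot] at h2
    have h3 : (fun i : Fin m => z (Fin.castAdd k i)) = 0 := by
      have h4 : A (fun i => z (Fin.castAdd k i)) = 0 := Subtype.ext h2
      exact (LinearEquiv.map_eq_zero_iff A).1 h4
    have h5 : (fun i : Fin k => z (Fin.natAdd m i)) = 0 := by
      rw [h2, zero_add] at hz
      have h4 : B (fun i => z (Fin.natAdd m i)) = 0 := Subtype.ext hz
      exact (LinearEquiv.map_eq_zero_iff B).1 h4
    funext i
    refine Fin.addCases (fun i' => ?_) (fun j => ?_) i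
    · exact congrFun h3 i'
    · exact congrFun h5 j
  let T : (Fin (m + k) → ℝ) ≃ₗ[ℝ] (Fin (m + k) → ℝ) := LinearEquiv.ofInjectiveEndo T₀ hinj
  have hT : ∀ z, T z = T₀ z := fun z => rfl
  have hTa : ∀ a : Fin m → ℝ, T (Fin.append a (0 : Fin k → ℝ)) = (A a : Fin (m + k) → ℝ) := by
    intro a
    rw [hT, hT₀]
    have h1 : (fun i : Fin m => (Fin.append a (0 : Fin k → ℝ) : Fin (m + k) → ℝ)
        (Fin.castAdd k i)) = a := by
      funext i
      rw [Fin.append_left]
    have h2 : (fun i : Fin k => (Fin.append a (0 : Fin k → ℝ) : Fin (m + k) → ℝ)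
        (Fin.natAdd m i)) = 0 := by
      funext i
      rw [Fin.append_right]
    rw [h1, h2, map_zero]
    simp
  have hTb : ∀ b : Fin k → ℝ, T (Fin.append (0 : Fin m → ℝ) b) = (B b : Fin (m + k) → ℝ) := by
    intro b
    rw [hT, hT₀]
    have h1 : (fun i : Fin m => (Fin.append (0 : Fin m → ℝ) b : Fin (m + k) → ℝ)
        (Fin.castAdd k i)) = 0 := by
      funext i
      rw [Fin.append_left]
    have h2 : (fun i : Fin k => (Fin.append (0 : Fin m → ℝ) b : Fin (m + k) → ℝ)
        (Fin.natAdd m i)) = b := by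
      funext i
      rw [Fin.append_right]
    rw [h1, h2, map_zero]
    simp
  have himg : T '' fsum K L = convexHull ℝ (range u ∪ range w) := by
    have h1 : (T : (Fin (m + k) → ℝ) → (Fin (m + k) → ℝ)) '' fsum K L =
        convexHull ℝ (T '' ((fun a : Fin m → ℝ =>
          (Fin.append a (0 : Fin k → ℝ) : Fin (m + k) → ℝ)) '' K ∪
          (fun b : Fin k → ℝ => (Fin.append (0 : Fin m → ℝ) b : Fin (m + k) → ℝ)) '' L)) :=
      LinearMap.image_convexHull T.toLinearMap _
    rw [h1, image_union, image_image, image_image]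
    simp only [hTa, hTb]
    rw [hKi, hLi]
    apply Subset.antisymm
    · refine convexHull_min ?_ (convex_convexHull ℝ _)
      refine union_subset ?_ ?_
      · exact convexHull_mono subset_union_left
      · exact convexHull_mono subset_union_right
    · refine convexHull_mono (union_subset_union ?_ ?_)
      · exact subset_convexHull ℝ _
      · exact subset_convexHull ℝ _
  have hfin := sic_affine (fsum_convBody hKb hLb).compact hS T.toAffineEquiv
  have h2 : (T.toAffineEquiv : (Fin (m + k) → ℝ) → (Fin (m + k) → ℝ)) '' fsum K L =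
      T '' fsum K L := rfl
  rw [h2, himg] at hfin
  exact hfin

end Vale.Agent.P254U
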