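import Vale.Agent.Lib.P254U.FS.Radon

/-!
P254U/FS/Radon2: polytopes with at most `n + 2` vertices.

There are `λ_j`, not all zero, with `Σ λ_j = 0`, `Σ λ_j v_j = 0` (`n + 2` points in `ℝ^n`;
`exists_nontrivial_relation_sum_zero_of_finrank_succ_lt_card` or Radon's theorem
`Convex.radon_partition`).  `P = {λ_j > 0}`, `Q = {λ_j ≤ 0}`, `|P| = p`, `|Q| = q`, `p + q = n + 2`,
both nonempty; `b = Σ_P λ_j v_j / Σ_P λ_j ∈ conv v_P ∩ conv v_Q`.  If `p = 1`, then `v_P = b` lies in
the hull of the other `n + 1` points, so the body is the hull of `n + 1` points with nonempty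
interior, a simplex (`affineIndependent_of_interior`, `sic_simplex`); the same if `q = 1`.
Otherwise translate `b` to `0` (`sic_affine`) and use `sic_radon` with `m = p - 1`, `k = q - 1`,
`n = m + k`.
-/

open MeasureTheory Set

namespace Vale.Agent.P254U

variable {n : ℕ}

theorem Radon2_simp (hn : 1 ≤ n) {ι : Type} [Fintype ι] (hι : Fintype.card ι = n + 1)
    (p : ι → (Fin n → ℝ)) (h : (interior (convexHull ℝ (range p))).Nonempty) :
    SIC (convexHull ℝ (range p)) := by
  have hp := affineIndependent_of_interior hι p h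
  let e : Fin (n + 1) ≃ ι := (finCongr hι.symm).trans (Fintype.equivFin ι).symm
  refine sic_simplex hn ⟨p ∘ e, hp.comp_embedding e.toEmbedding, ?_⟩
  rw [e.surjective.range_comp]

theorem Radon2_one (hn : 1 ≤ n) (v : Fin (n + 2) → (Fin n → ℝ))
    (h : (interior (convexHull ℝ (range v))).Nonempty) (I J : Set (Fin (n + 2)))
    (hIJ : ∀ i, i ∈ I ∨ i ∈ J) [Fintype I] [Fintype J] {b : Fin n → ℝ}
    (hb : b ∈ convexHull ℝ (v '' I)) (hb' : b ∈ convexHull ℝ (v '' J))
    (hI : Fintype.card I = 1) (hJ : Fintype.card J = n + 1) : SIC (convexHull ℝ (range v)) := by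
  obtain ⟨i0, hi0⟩ := Fintype.card_eq_one_iff.1 hI
  have hI' : I = {(i0 : Fin (n + 2))} := by
    ext i
    constructor
    · intro hi
      have := congrArg Subtype.val (hi0 ⟨i, hi⟩)
      exact this
    · rintro rfl
      exact i0.2
  rw [hI', image_singleton, convexHull_singleton, mem_singleton_iff] at hb
  subst hb
  have hr : v '' J = range (fun i : J => v i) := by
    ext x
    constructor
    · rintro ⟨i, hi, rfl⟩
      exact ⟨⟨i, hi⟩, rfl⟩
    · rintro ⟨i, rfl⟩
      exact ⟨i, i.2, rfl⟩
  have heq : convexHull ℝ (range v) = convexHull ℝ (range fun i : J => v i) := by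
    rw [← hr]
    refine Subset.antisymm (convexHull_min ?_ (convex_convexHull ℝ _))
      (convexHull_mono (image_subset_range _ _))
    rintro x ⟨i, rfl⟩
    rcases hIJ i with hi | hi
    · rw [hI', mem_singleton_iff] at hi
      subst hi
      exact hb'
    · exact subset_convexHull ℝ _ ⟨i, hi, rfl⟩
  rw [heq] at h ⊢
  exact Radon2_simp hn hJ _ h

theorem sic_points (hn : 1 ≤ n) (v : Fin (n + 2) → (Fin n → ℝ))
    (h : (interior (convexHull ℝ (range v))).Nonempty) : SIC (convexHull ℝ (range v)) := by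
  classical
  have hnot : ¬ AffineIndependent ℝ v := by
    intro hv
    have h1 := hv.card_le_finrank_succ
    have h2 : Module.finrank ℝ (vectorSpan ℝ (range v)) ≤ n := by
      have := Submodule.finrank_le (vectorSpan ℝ (range v))
      simpa using this
    simp only [Fintype.card_fin] at h1
    omega
  obtain ⟨I, b, hbI, hbJ⟩ := Convex.radon_partition hnot
  obtain ⟨J, hJ⟩ : ∃ J : Set (Fin (n + 2)), J = Iᶜ := ⟨_, rfl⟩
  rw [← hJ] at hbJ
  have hIJ : ∀ i, i ∈ I ∨ i ∈ J := fun i => by
    rw [hJ]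
    exact em _
  have hne : ∀ S : Set (Fin (n + 2)), b ∈ convexHull ℝ (v '' S) → 0 < Fintype.card S := by
    intro S hS
    have h1 : (v '' S).Nonempty := convexHull_nonempty_iff.1 ⟨b, hS⟩
    obtain ⟨i, hi⟩ := image_nonempty.1 h1
    exact Fintype.card_pos_iff.2 ⟨⟨i, hi⟩⟩
  have hp := hne I hbI
  have hq := hne J hbJ
  have hcard : Fintype.card I + Fintype.card J = n + 2 := by
    have e : I ⊕ J ≃ Fin (n + 2) := by
      rw [hJ]
      exact Equiv.Set.sumCompl I
    have h1 := Fintype.card_congr e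
    rw [Fintype.card_sum, Fintype.card_fin] at h1
    exact h1
  by_cases h1 : Fintype.card I = 1
  · exact Radon2_one hn v h I J hIJ hbI hbJ h1 (by omega)
  by_cases h2 : Fintype.card J = 1
  · exact Radon2_one hn v h J I (fun i => (hIJ i).symm) hbJ hbI h2 (by omega)
  obtain ⟨m, hm⟩ : ∃ m, Fintype.card I = m + 1 := ⟨Fintype.card I - 1, by omega⟩
  obtain ⟨k, hk⟩ : ∃ k, Fintype.card J = k + 1 := ⟨Fintype.card J - 1, by omega⟩
  obtain rfl : n = m + k := by omega
  -- translation
  have himg : ∀ s : Set (Fin (m + k) → ℝ), (fun x => b + x) '' convexHull ℝ ((fun x => -b + x) '' s) =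
      convexHull ℝ s := by
    intro s
    have h3 := (AffineEquiv.constVAdd ℝ (Fin (m + k) → ℝ) b :
      (Fin (m + k) → ℝ) →ᵃ[ℝ] (Fin (m + k) → ℝ)).image_convexHull ((fun x => -b + x) '' s)
    have h4 : ((AffineEquiv.constVAdd ℝ (Fin (m + k) → ℝ) b :
      (Fin (m + k) → ℝ) →ᵃ[ℝ] (Fin (m + k) → ℝ)) : (Fin (m + k) → ℝ) → (Fin (m + k) → ℝ)) =
        fun x => b + x := by
      funext x
      rfl
    rw [h4] at h3
    rw [h3, image_image]
    simp
  have hinj : Function.Injective (fun x : Fin (m + k) → ℝ => b + x) := add_right_injective b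
  have hzero : ∀ s : Set (Fin (m + k) → ℝ), b ∈ convexHull ℝ s →
      (0 : Fin (m + k) → ℝ) ∈ convexHull ℝ ((fun x => -b + x) '' s) := by
    intro s hs
    rw [← himg s] at hs
    obtain ⟨x, hx, hxb⟩ := hs
    have : x = 0 := by simpa using hxb
    rwa [this] at hx
  have hru : ∀ S : Set (Fin (m + k + 2)), (fun x => -b + x) '' (v '' S) =
      range (fun i : S => -b + v i) := by
    intro S
    ext x
    constructor
    · rintro ⟨-, ⟨i, hi, rfl⟩, rfl⟩
      exact ⟨⟨i, hi⟩, rfl⟩
    · rintro ⟨i, rfl⟩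
      exact ⟨v i, ⟨i, i.2, rfl⟩, rfl⟩
  have hun : (range fun i : I => -b + v i) ∪ (range fun i : J => -b + v i) =
      (fun x => -b + x) '' range v := by
    rw [← hru, ← hru, ← image_union, ← image_union]
    have : I ∪ J = univ := by
      ext i
      simpa using hIJ i
    rw [this, image_univ]
  have hK : (fun x => b + x) '' convexHull ℝ ((range fun i : I => -b + v i) ∪
      (range fun i : J => -b + v i)) = convexHull ℝ (range v) := by
    rw [hun, himg]
  have hint : (interior (convexHull ℝ ((range fun i : I => -b + v i) ∪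
      (range fun i : J => -b + v i)))).Nonempty := by
    rw [← hK] at h
    have h5 := (Homeomorph.addLeft b).image_interior (convexHull ℝ ((range fun i : I => -b + v i) ∪
      (range fun i : J => -b + v i)))
    have h6 : ((Homeomorph.addLeft b : (Fin (m + k) → ℝ) ≃ₜ (Fin (m + k) → ℝ)) :
      (Fin (m + k) → ℝ) → (Fin (m + k) → ℝ)) = fun x => b + x := rfl
    rw [h6] at h5
    rw [← h5] at h
    exact image_nonempty.1 h
  have hsic := sic_radon (m := m) (k := k) (by omega) (by omega) hm hk (fun i : I => -b + v i)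
    (fun i : J => -b + v i) (by rw [← hru]; exact hzero _ hbI) (by rw [← hru]; exact hzero _ hbJ) hint
  have hcpt : IsCompact (convexHull ℝ ((range fun i : I => -b + v i) ∪
      (range fun i : J => -b + v i))) :=
    ((finite_range _).union (finite_range _)).isCompact_convexHull ℝ
  have hfin := sic_affine hcpt hsic (AffineEquiv.constVAdd ℝ (Fin (m + k) → ℝ) b)
  have h7 : ((AffineEquiv.constVAdd ℝ (Fin (m + k) → ℝ) b :
      (Fin (m + k) → ℝ) ≃ᵃ[ℝ] (Fin (m + k) → ℝ)) : (Fin (m + k) → ℝ) → (Fin (m + k) → ℝ)) =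
        fun x => b + x := rfl
  rw [h7, hK] at hfin
  exact hfin

end Vale.Agent.P254U
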