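import Vale.Agent.Lib.P254U.FS.KLS
import Vale.Agent.Lib.P254U.Simp

/-!
P254U/FS/RatSum: the exact formula for free sums, and the relation of `Rat` to `isoConst`.

`Rat_fsum`: `Matrix.det_reindex_self` / `Matrix.det_submatrix_equiv_self` with `finSumFinEquiv`,
`SM_fsum`, `det_block` (`μ = m+1`, `ν = k+1`), `GM_eq`, `vol_fsum`.
`isoConst_eq_Rat`: `det SM = ((n+1)(n+2))^n det covM` (`Matrix.det_smul`), `isoConst_simplex`.
-/

open MeasureTheory Set

namespace Vale.Agent.P254U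

variable {m k n : ℕ}

theorem Rat_fsum (hm : 1 ≤ m) (hk : 1 ≤ k) {K : Set (Fin m → ℝ)} {L : Set (Fin k → ℝ)}
    (hK : ConvBody m K) (hL : ConvBody k L) (h0 : (0 : Fin m → ℝ) ∈ K)
    (h0' : (0 : Fin k → ℝ) ∈ L) :
    Rat (fsum K L) = Rat K * Rat L - (Rat K - Gam K) * (Rat L - Gam L) := by
  have hG1 : (GM K).det ≠ 0 := by
    intro h
    have h1 := Gam_pos hm hK h0
    unfold Gam at h1
    rw [h, zero_div] at h1
    exact lt_irrefl _ h1
  have hG2 : (GM L).det ≠ 0 := by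
    intro h
    have h1 := Gam_pos hk hL h0'
    unfold Gam at h1
    rw [h, zero_div] at h1
    exact lt_irrefl _ h1
  have hmr : (0 : ℝ) ≤ m := Nat.cast_nonneg m
  have hkr : (0 : ℝ) ≤ k := Nat.cast_nonneg k
  have hb := det_block (GM K) (GM L) hG1 hG2 (fun i => ((m : ℝ) + 1) * cen K i)
    (fun j => ((k : ℝ) + 1) * cen L j) ((m : ℝ) + 1) ((k : ℝ) + 1) (by linarith) (by linarith)
  have e1 : GM K - (1 / ((m : ℝ) + 1)) • Matrix.vecMulVec (fun i => ((m : ℝ) + 1) * cen K i)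
      (fun i => ((m : ℝ) + 1) * cen K i) = SM K := by
    rw [GM_eq K, add_sub_cancel_right]
  have e2 : GM L - (1 / ((k : ℝ) + 1)) • Matrix.vecMulVec (fun i => ((k : ℝ) + 1) * cen L i)
      (fun i => ((k : ℝ) + 1) * cen L i) = SM L := by
    rw [GM_eq L, add_sub_cancel_right]
  have e3 : (m : ℝ) + 1 + ((k : ℝ) + 1) - 1 = (m : ℝ) + k + 1 := by ring
  rw [e1, e2, e3] at hb
  have e4 : (SM (fsum K L)).submatrix finSumFinEquiv finSumFinEquiv =
      Matrix.fromBlocks (GM K) 0 0 (GM L) - (1 / ((m : ℝ) + k + 1)) •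
        Matrix.vecMulVec (Sum.elim (fun i => ((m : ℝ) + 1) * cen K i)
          (fun j => ((k : ℝ) + 1) * cen L j)) (Sum.elim (fun i => ((m : ℝ) + 1) * cen K i)
          (fun j => ((k : ℝ) + 1) * cen L j)) := by
    ext i j
    exact SM_fsum hm hk hK hL h0 h0' i j
  have e5 : (SM (fsum K L)).det = (Matrix.fromBlocks (GM K) 0 0 (GM L) -
      (1 / ((m : ℝ) + k + 1)) •
        Matrix.vecMulVec (Sum.elim (fun i => ((m : ℝ) + 1) * cen K i)
          (fun j => ((k : ℝ) + 1) * cen L j)) (Sum.elim (fun i => ((m : ℝ) + 1) * cen K i)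
          (fun j => ((k : ℝ) + 1) * cen L j))).det := by
    rw [← e4, Matrix.det_submatrix_equiv_self]
  rw [← e5] at hb
  have hv := vol_fsum hm hk hK hL h0 h0'
  have hVK := convBody_vol_pos hK
  have hVL := convBody_vol_pos hL
  have hfm : (0 : ℝ) < (m.factorial : ℝ) := by exact_mod_cast Nat.factorial_pos m
  have hfk : (0 : ℝ) < (k.factorial : ℝ) := by exact_mod_cast Nat.factorial_pos k
  have e6 : Rat (fsum K L) = ((SM (fsum K L)).det * ((m : ℝ) + k + 1)) /
      (((m.factorial : ℝ) * (volume K).toReal) * ((k.factorial : ℝ) * (volume L).toReal)) ^ 2 := by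
    unfold Rat
    rw [hv]
    push_cast
    ring
  rw [e6, hb]
  unfold Rat Gam
  have h1 : (m.factorial : ℝ) * (volume K).toReal ≠ 0 := (mul_pos hfm hVK).ne'
  have h2 : (k.factorial : ℝ) * (volume L).toReal ≠ 0 := (mul_pos hfk hVL).ne'
  generalize (m.factorial : ℝ) * (volume K).toReal = A at h1 ⊢
  generalize (k.factorial : ℝ) * (volume L).toReal = B at h2 ⊢
  field_simp
  ring

/-- `det covM / vol² = Rat * n!² / ((n+1)^(n+1) (n+2)^n)` -/
theorem det_covM_eq_Rat {K : Set (Fin n → ℝ)} (hK : ConvBody n K) :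
    (covM K).det / (volume K).toReal ^ 2 =
      Rat K * ((n.factorial : ℝ) ^ 2 / (((n : ℝ) + 1) ^ (n + 1) * ((n : ℝ) + 2) ^ n)) := by
  have hV := convBody_vol_pos hK
  have hf : (0 : ℝ) < (n.factorial : ℝ) := by exact_mod_cast Nat.factorial_pos n
  have e1 : SM K = (((n : ℝ) + 1) * ((n : ℝ) + 2)) • covM K := by
    ext i j
    rfl
  have e2 : (SM K).det = (((n : ℝ) + 1) * ((n : ℝ) + 2)) ^ n * (covM K).det := by
    rw [e1, Matrix.det_smul, Fintype.card_fin]
  unfold Rat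
  rw [e2]
  have h1 : (0 : ℝ) < (n : ℝ) + 1 := by positivity
  have h2 : (0 : ℝ) < (n : ℝ) + 2 := by positivity
  rw [mul_pow]
  field_simp
  ring

theorem RatSum_iso {K : Set (Fin n → ℝ)} (hK : ConvBody n K) :
    isoConst K = (Rat K * ((n.factorial : ℝ) ^ 2 /
      (((n : ℝ) + 1) ^ (n + 1) * ((n : ℝ) + 2) ^ n))) ^ (1 / (2 * (n : ℝ))) := by
  unfold isoConst
  rw [det_covM_eq_Rat hK]

theorem RatSum_pos (n : ℕ) : (0 : ℝ) < (n.factorial : ℝ) ^ 2 /
    (((n : ℝ) + 1) ^ (n + 1) * ((n : ℝ) + 2) ^ n) := by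
  have hf : (0 : ℝ) < (n.factorial : ℝ) := by exact_mod_cast Nat.factorial_pos n
  positivity

theorem isoConst_le_iff (hn : 1 ≤ n) {K : Set (Fin n → ℝ)} (hK : ConvBody n K)
    {v : Fin (n + 1) → (Fin n → ℝ)} (hv : AffineIndependent ℝ v) :
    isoConst K ≤ isoConst (convexHull ℝ (range v)) ↔ Rat K ≤ 1 := by
  have ha := RatSum_pos n
  have hR := Rat_pos hK
  have hn' : (0 : ℝ) < n := by exact_mod_cast hn
  rw [RatSum_iso hK, isoConst_simplex n hn hv,
    Real.rpow_le_rpow_iff (mul_pos hR ha).le ha.le (by positivity)]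
  exact mul_le_iff_le_one_left ha

theorem isoConst_eq_iff (hn : 1 ≤ n) {K : Set (Fin n → ℝ)} (hK : ConvBody n K)
    {v : Fin (n + 1) → (Fin n → ℝ)} (hv : AffineIndependent ℝ v) :
    isoConst K = isoConst (convexHull ℝ (range v)) ↔ Rat K = 1 := by
  have ha := RatSum_pos n
  have hR := Rat_pos hK
  have hn' : (0 : ℝ) < n := by exact_mod_cast hn
  rw [RatSum_iso hK, isoConst_simplex n hn hv,
    Real.rpow_left_inj (mul_pos hR ha).le ha.le (by positivity)]
  exact mul_eq_right₀ ha.ne'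

end Vale.Agent.P254U
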