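import Vale.Agent.Lib.P254U.FS.RatSum

/-!
P254U/FS/SimpG: simplices.

`simplex_rat`: `Rat = 1` (`isoConst_eq_iff` with `isoConst` of the simplex itself; a simplex is a
convex body: it has interior points by `AffineIndependent` and `interior_convexHull_nonempty...` or
`simplex_affine` and `convBody` of the standard simplex).
`simplex_gam_lt`: if `0 ∈ conv v` is not one of the vertices then `Gam < 1`.  For the simplex with
vertices `v_j` (`j ≤ n`), `c = (1/(n+1)) Σ v_j` and
`(n+1)(n+2) mom2 = Σ_j v_j v_jᵀ + (n+1)² c cᵀ` (transport `simp_two`, `simp_one` by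
`simplex_affine`: with `x = v_0 + Σ t_i (v_i - v_0)`, `t` in the standard simplex).  So
`ξᵀ SM ξ = Σ_j z_j² - (1/(n+1)) (Σ z_j)²`, `z_j = ξ · v_j`, and `(n+1) ξ·c = Σ z_j`.  With
`0 = Σ λ_j v_j`, `Σ λ_j = 1`, `λ_j ≥ 0`: `Σ λ_j z_j = 0`, so
`(Σ z_j)² = (Σ (1 - t λ_j) z_j)² ≤ (n + 1 - 2 t + t² Σ λ_j²) Σ z_j²` with `t = 1/Σ λ_j²` gives
`(Σ z_j)² ≤ (n + 1 - 1/Σλ_j²) Σ z_j² < n Σ z_j²` unless `z = 0`; if `Σλ_j² = 1` some `λ_j = 1`, so
`0 = v_j`.  Thus `((n+1) ξ·c)² < (n+1) n ξᵀ SM ξ` for `ξ ≠ 0` (`z ≠ 0` because the `v_j` affinely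
span) and `det_compare_strict` gives `det GM < (n+1) det SM`, i.e. `Gam < Rat = 1`.
-/

open MeasureTheory Set

namespace Vale.Agent.P254U

variable {n : ℕ}

theorem IsSimplex.convBody {K : Set (Fin n → ℝ)} (h : IsSimplex K) : ConvBody n K := by
  obtain ⟨v, hv, rfl⟩ := h
  refine ⟨(finite_range v).isCompact_convexHull (𝕜 := ℝ), convex_convexHull ℝ _, ?_⟩
  rw [interior_convexHull_nonempty_iff_affineSpan_eq_top,
    hv.affineSpan_eq_top_iff_card_eq_finrank_add_one]
  simp

theorem simplex_rat (hn : 1 ≤ n) {K : Set (Fin n → ℝ)} (h : IsSimplex K) : Rat K = 1 := by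
  have hK := h.convBody
  obtain ⟨v, hv, rfl⟩ := h
  exact (isoConst_eq_iff hn hK hv).1 rfl

private theorem SimpG_T {v : Fin (n + 1) → (Fin n → ℝ)} (hv : AffineIndependent ℝ v) :
    ∃ T : (Fin n → ℝ) ≃ᵃ[ℝ] (Fin n → ℝ), T '' stdS n = convexHull ℝ (range v) ∧
      ∀ x, T x = v 0 + ∑ i, x i • (v i.succ - v 0) := by
  have h1 := (affineIndependent_iff_linearIndependent_vsub ℝ v 0).1 hv
  have h2 : LinearIndependent ℝ (fun i : Fin n => v i.succ - v 0) := by
    have h3 := h1.comp (fun i : Fin n => (⟨i.succ, Fin.succ_ne_zero i⟩ : {x : Fin (n + 1) // x ≠ 0}))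
      (by
        intro a b hab
        exact Fin.succ_injective _ (congrArg Subtype.val hab))
    exact h3
  have h2s : ⊤ ≤ Submodule.span ℝ (range (fun i : Fin n => v i.succ - v 0)) := by
    rw [h2.span_eq_top_of_card_eq_finrank' (by simp)]
  let b := Module.Basis.mk h2 h2s
  have hb : ∀ i, b i = v i.succ - v 0 := by
    intro i
    exact Module.Basis.mk_apply h2 h2s i
  let T : (Fin n → ℝ) ≃ᵃ[ℝ] (Fin n → ℝ) :=
    (b.equivFun.symm.toAffineEquiv).trans (AffineEquiv.constVAdd ℝ (Fin n → ℝ) (v 0))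
  have hT : ∀ x, T x = v 0 + ∑ i, x i • (v i.succ - v 0) := by
    intro x
    change v 0 + b.equivFun.symm x = _
    rw [Module.Basis.equivFun_symm_apply]
    simp only [hb]
  refine ⟨T, ?_, hT⟩
  apply Set.Subset.antisymm
  · rintro _ ⟨x, hx, rfl⟩
    rw [hT]
    have h4 : v 0 + ∑ i, x i • (v i.succ - v 0) =
        ∑ i : Fin (n + 1), (Fin.cons (1 - ∑ i, x i) x : Fin (n + 1) → ℝ) i • v i := by
      rw [Fin.sum_univ_succ]
      simp only [Fin.cons_zero, Fin.cons_succ, smul_sub, Finset.sum_sub_distrib, sub_smul,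
        one_smul, ← Finset.sum_smul]
      abel
    rw [h4]
    refine (convex_convexHull ℝ (range v)).sum_mem ?_ ?_ ?_
    · intro i _
      refine Fin.cases ?_ (fun k => ?_) i
      · simp only [Fin.cons_zero]
        linarith [hx.2]
      · simp only [Fin.cons_succ]
        exact hx.1 k
    · rw [Fin.sum_univ_succ]
      simp
    · intro i _
      exact subset_convexHull ℝ _ ⟨i, rfl⟩
  · refine convexHull_min ?_ ?_
    · rintro _ ⟨i, rfl⟩
      refine Fin.cases ?_ (fun k => ?_) i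
      · refine ⟨0, ⟨fun _ => le_refl _, by simp⟩, ?_⟩
        rw [hT]
        simp
      · refine ⟨Pi.single k 1, ⟨fun j => ?_, ?_⟩, ?_⟩
        · by_cases hj : j = k
          · subst hj; simp
          · simp [Pi.single_eq_of_ne hj]
        · rw [Finset.sum_pi_single']
          simp
        · rw [hT, Finset.sum_eq_single k]
          · simp
          · intro j _ hj
            simp [Pi.single_eq_of_ne hj]
          · intro h
            exact absurd (Finset.mem_univ k) h
    · exact (simp_convex n).affine_image (T : (Fin n → ℝ) →ᵃ[ℝ] (Fin n → ℝ))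

private theorem SimpG_cv {K : Set (Fin n → ℝ)} (hK : IsCompact K)
    (T : (Fin n → ℝ) ≃ᵃ[ℝ] (Fin n → ℝ)) : ∃ D : ℝ, 0 < D ∧ ∀ f : (Fin n → ℝ) → ℝ,
      ∫ y in T '' K, f y = D * ∫ x in K, f (T x) := by
  classical
  set A : (Fin n → ℝ) →ₗ[ℝ] (Fin n → ℝ) := (T.linear : (Fin n → ℝ) →ₗ[ℝ] (Fin n → ℝ)) with hA
  set b : Fin n → ℝ := T 0 with hb
  have hT : ∀ x, T x = A x + b := by
    intro x
    have h := T.map_vadd 0 x
    simp only [vadd_eq_add, add_zero] at h
    exact h
  have hD0 : LinearMap.det A ≠ 0 := (LinearEquiv.isUnit_det' T.linear).ne_zero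
  have hTf : (T : (Fin n → ℝ) → (Fin n → ℝ)) =
      fun x => (LinearMap.toContinuousLinearMap A) x + b := funext fun x => hT x
  refine ⟨|LinearMap.det A|, abs_pos.2 hD0, fun f => ?_⟩
  have h1 := integral_image_eq_integral_abs_det_fderiv_smul
    (volume : Measure (Fin n → ℝ)) hK.measurableSet (f := T)
    (f' := fun _ => LinearMap.toContinuousLinearMap A) (fun x _ => by
      rw [hTf]
      exact ((LinearMap.toContinuousLinearMap A).hasFDerivAt.add_const b).hasFDerivWithinAt)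
    T.injective.injOn f
  rw [h1]
  simp only [LinearMap.det_toContinuousLinearMap, smul_eq_mul]
  rw [integral_const_mul]

private theorem SimpG_avg {K : Set (Fin n → ℝ)} (hK : IsCompact K)
    (T : (Fin n → ℝ) ≃ᵃ[ℝ] (Fin n → ℝ)) (f : (Fin n → ℝ) → ℝ) :
    (∫ y in T '' K, f y) / (volume (T '' K)).toReal =
      (∫ x in K, f (T x)) / (volume K).toReal := by
  obtain ⟨D, hD, h⟩ := SimpG_cv hK T
  have hvol : (volume (T '' K)).toReal = D * (volume K).toReal := by
    have h := h (fun _ => 1)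
    simpa [measureReal_def] using h
  rw [h f, hvol, mul_div_mul_left _ _ hD.ne']

private theorem SimpG_std (n : ℕ) : ConvBody n (stdS n) := by
  refine ⟨stdS_compact n, simp_convex n, ?_⟩
  have hopen : IsOpen {x : Fin n → ℝ | (∀ i, 0 < x i) ∧ ∑ i, x i < 1} := by
    have h1 : IsOpen {x : Fin n → ℝ | ∀ i, 0 < x i} := by
      have : {x : Fin n → ℝ | ∀ i, 0 < x i} = ⋂ i, {x : Fin n → ℝ | 0 < x i} := by
        ext x; simp
      rw [this]
      exact isOpen_iInter_of_finite fun i => isOpen_lt continuous_const (continuous_apply i)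
    have h2 : Continuous (fun x : Fin n → ℝ => ∑ i, x i) := by fun_prop
    exact h1.inter (isOpen_lt h2 continuous_const)
  have hsub : {x : Fin n → ℝ | (∀ i, 0 < x i) ∧ ∑ i, x i < 1} ⊆ stdS n :=
    fun x hx => ⟨fun i => (hx.1 i).le, hx.2.le⟩
  refine ⟨fun _ => 1 / ((n : ℝ) + 1), interior_maximal hsub hopen ⟨fun i => by positivity, ?_⟩⟩
  rw [Finset.sum_const, Finset.card_univ, Fintype.card_fin, nsmul_eq_mul, mul_one_div,
    div_lt_one (by positivity)]
  linarith

/-- second moments of a simplex -/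
theorem simplex_moments {v : Fin (n + 1) → (Fin n → ℝ)} (hv : AffineIndependent ℝ v)
    (ξ : Fin n → ℝ) :
    (ξ ⬝ᵥ (fun i => ((n : ℝ) + 1) * cen (convexHull ℝ (range v)) i)) = ∑ j, ξ ⬝ᵥ v j ∧
    (ξ ⬝ᵥ (SM (convexHull ℝ (range v))).mulVec ξ) =
      (∑ j, (ξ ⬝ᵥ v j) ^ 2) - 1 / ((n : ℝ) + 1) * (∑ j, ξ ⬝ᵥ v j) ^ 2 := by
  obtain ⟨T, hTK, hT⟩ := SimpG_T hv
  set K := convexHull ℝ (range v) with hKdef
  have hK : ConvBody n K := IsSimplex.convBody ⟨v, hv, rfl⟩
  have hS := SimpG_std n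
  have hn1 : (n : ℝ) + 1 ≠ 0 := by positivity
  have hn2 : (n : ℝ) + 2 ≠ 0 := by positivity
  -- centroid
  have hint : ∀ f : (Fin n → ℝ) → ℝ, Continuous f → IntegrableOn f (stdS n) := fun f hf =>
    hf.continuousOn.integrableOn_compact hS.compact
  have hVS := convBody_vol_pos hS
  have hcen : ∀ i, cen K i = v 0 i + ∑ k : Fin n, (v k.succ i - v 0 i) * (1 / ((n : ℝ) + 1)) := by
    intro i
    have h1 := SimpG_avg hS.compact T (fun y => y i)
    rw [hTK] at h1
    have h2 : ∀ x : Fin n → ℝ, T x i = v 0 i + ∑ k, (v k.succ i - v 0 i) * x k := by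
      intro x
      rw [hT]
      simp only [Pi.add_apply, Finset.sum_apply, Pi.smul_apply, Pi.sub_apply, smul_eq_mul]
      congr 1
      exact Finset.sum_congr rfl fun k _ => mul_comm _ _
    have h3 : cen K i = (∫ x in stdS n, T x i) / (volume (stdS n)).toReal := h1
    rw [h3]
    simp only [h2]
    have i1 : IntegrableOn (fun _ : Fin n → ℝ => v 0 i) (stdS n) := hint _ continuous_const
    have i2 : IntegrableOn (fun x : Fin n → ℝ => ∑ k, (v k.succ i - v 0 i) * x k) (stdS n) :=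
      hint _ (by fun_prop)
    have i3 : ∀ k ∈ (Finset.univ : Finset (Fin n)),
        Integrable (fun x : Fin n → ℝ => (v k.succ i - v 0 i) * x k) (volume.restrict (stdS n)) :=
      fun k _ => hint _ (by fun_prop)
    rw [integral_add i1 i2, integral_finsetSum _ i3, add_div, Finset.sum_div]
    congr 1
    · rw [setIntegral_const, smul_eq_mul, measureReal_def, mul_comm, mul_div_assoc,
        div_self hVS.ne', mul_one]
    · refine Finset.sum_congr rfl fun k _ => ?_
      rw [integral_const_mul, ← simp_cen n k]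
      unfold cen
      ring
  set z : Fin (n + 1) → ℝ := fun j => ξ ⬝ᵥ v j with hz
  set w : Fin n → ℝ := fun k => z k.succ - z 0 with hw
  have hdot : ξ ⬝ᵥ (fun i => cen K i) = z 0 + ∑ k, w k * (1 / ((n : ℝ) + 1)) := by
    simp only [hz, hw, dotProduct, hcen, mul_add, Finset.sum_add_distrib, Finset.mul_sum]
    congr 1
    rw [Finset.sum_comm]
    refine Finset.sum_congr rfl fun k _ => ?_
    rw [← Finset.sum_sub_distrib, Finset.sum_mul]
    refine Finset.sum_congr rfl fun i _ => ?_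
    ring
  have hTz : ∀ x : Fin n → ℝ, ∑ i, ξ i * T x i = z 0 + ∑ k, w k * x k := by
    intro x
    rw [hT]
    simp only [hz, hw, dotProduct, Pi.add_apply, Finset.sum_apply, Pi.smul_apply, Pi.sub_apply,
      smul_eq_mul, mul_add, Finset.sum_add_distrib, Finset.mul_sum]
    congr 1
    rw [Finset.sum_comm]
    refine Finset.sum_congr rfl fun k _ => ?_
    rw [← Finset.sum_sub_distrib, Finset.sum_mul]
    refine Finset.sum_congr rfl fun i _ => ?_
    ring
  have hsumw : ∑ k, w k = (∑ j, z j) - ((n : ℝ) + 1) * z 0 := by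
    rw [Fin.sum_univ_succ]
    simp only [hw, Finset.sum_sub_distrib, Finset.sum_const, Finset.card_univ, Fintype.card_fin,
      nsmul_eq_mul]
    ring
  have hsumw2 : ∑ k, w k ^ 2 = (∑ j, z j ^ 2) - 2 * z 0 * (∑ j, z j) + ((n : ℝ) + 1) * z 0 ^ 2 := by
    rw [Fin.sum_univ_succ, Fin.sum_univ_succ]
    have e : ∀ k : Fin n, w k ^ 2 = z k.succ ^ 2 - 2 * z 0 * z k.succ + z 0 ^ 2 := by
      intro k
      simp only [hw]
      ring
    simp only [e, Finset.sum_add_distrib, Finset.sum_sub_distrib, Finset.sum_const,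
      Finset.card_univ, Fintype.card_fin, nsmul_eq_mul, ← Finset.mul_sum]
    ring
  refine ⟨?_, ?_⟩
  · have e1 : ξ ⬝ᵥ (fun i => ((n : ℝ) + 1) * cen K i) = ((n : ℝ) + 1) * (ξ ⬝ᵥ fun i => cen K i) := by
      simp only [dotProduct, Finset.mul_sum]
      refine Finset.sum_congr rfl fun i _ => ?_
      ring
    rw [e1, hdot, ← Finset.sum_mul, hsumw]
    field_simp
    ring
  · rw [KLS_SM_form hK, ← hTK, SimpG_avg hS.compact T, hTK]
    have e2 : ∀ x : Fin n → ℝ, ∑ i, ξ i * (T x i - cen K i) =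
        ∑ k, w k * (x k - cen (stdS n) k) := by
      intro x
      have h1 := hTz x
      have h2 : ∑ i, ξ i * cen K i = z 0 + ∑ k, w k * (1 / ((n : ℝ) + 1)) := hdot
      simp only [mul_sub, Finset.sum_sub_distrib, h1, h2, simp_cen]
      ring
    simp only [e2]
    rw [← KLS_covM_form hS]
    have e3 : w ⬝ᵥ (covM (stdS n)).mulVec w =
        (((n : ℝ) + 1) * ∑ k, w k ^ 2 - (∑ k, w k) ^ 2) / (((n : ℝ) + 1) ^ 2 * ((n : ℝ) + 2)) := by
      simp only [dotProduct, Matrix.mulVec, simp_cov]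
      rw [sq (∑ k, w k), Finset.sum_mul_sum, Finset.mul_sum, ← Finset.sum_sub_distrib,
        Finset.sum_div]
      refine Finset.sum_congr rfl fun i _ => ?_
      have e4 : ∀ j : Fin n, ((if i = j then ((n : ℝ) + 1) else 0) - 1) /
          (((n : ℝ) + 1) ^ 2 * ((n : ℝ) + 2)) * w j =
          ((if i = j then ((n : ℝ) + 1) * w j else 0) - w j) /
            (((n : ℝ) + 1) ^ 2 * ((n : ℝ) + 2)) := by
        intro j
        split_ifs <;> ring
      simp only [e4]
      rw [← Finset.sum_div, Finset.sum_sub_distrib, Finset.sum_ite_eq]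
      simp only [Finset.mem_univ, if_true]
      rw [← Finset.mul_sum]
      ring
    rw [e3, hsumw, hsumw2]
    field_simp
    ring

theorem simplex_gam_lt (hn : 1 ≤ n) {v : Fin (n + 1) → (Fin n → ℝ)} (hv : AffineIndependent ℝ v)
    (h0 : (0 : Fin n → ℝ) ∈ convexHull ℝ (range v)) (h1 : ∀ j, v j ≠ 0) :
    Gam (convexHull ℝ (range v)) < 1 := by
  obtain ⟨T, hTK, hT⟩ := SimpG_T hv
  set K := convexHull ℝ (range v) with hKdef
  have hKs : IsSimplex K := ⟨v, hv, rfl⟩
  have hK : ConvBody n K := hKs.convBody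
  have hn' : (0 : ℝ) < n := by exact_mod_cast hn
  -- barycentric coordinates of `0`
  obtain ⟨l, hl0, hl1, hlv⟩ : ∃ l : Fin (n + 1) → ℝ, (∀ j, 0 ≤ l j) ∧ ∑ j, l j = 1 ∧
      ∑ j, l j • v j = 0 := by
    rw [← hTK] at h0
    obtain ⟨x, hx, hx0⟩ := h0
    refine ⟨Fin.cons (1 - ∑ i, x i) x, ?_, ?_, ?_⟩
    · intro j
      refine Fin.cases ?_ (fun k => ?_) j
      · simp only [Fin.cons_zero]
        linarith [hx.2]
      · simp only [Fin.cons_succ]
        exact hx.1 k
    · rw [Fin.sum_univ_succ]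
      simp
    · rw [← hx0, hT, Fin.sum_univ_succ]
      simp only [Fin.cons_zero, Fin.cons_succ, smul_sub, Finset.sum_sub_distrib, sub_smul,
        one_smul, ← Finset.sum_smul]
      abel
  have hlle : ∀ j, l j ≤ 1 := by
    intro j
    rw [← hl1]
    exact Finset.single_le_sum (fun i _ => hl0 i) (Finset.mem_univ j)
  have hlsq : ∑ j, l j ^ 2 < 1 := by
    have hle : ∀ j, l j ^ 2 ≤ l j := fun j => by nlinarith [hl0 j, hlle j]
    by_contra hge
    have heq : ∑ j, (l j - l j ^ 2) = 0 := by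
      have h2 : 0 ≤ ∑ j, (l j - l j ^ 2) := Finset.sum_nonneg fun j _ => by linarith [hle j]
      have h3 : ∑ j, (l j - l j ^ 2) ≤ 0 := by
        rw [Finset.sum_sub_distrib, hl1]
        linarith [not_lt.1 hge]
      linarith
    have heach := (Finset.sum_eq_zero_iff_of_nonneg
      (fun j _ => by linarith [hle j])).1 heq
    have h01 : ∀ j, l j = 0 ∨ l j = 1 := by
      intro j
      have h2 := heach j (Finset.mem_univ j)
      have h3 : l j * (1 - l j) = 0 := by linarith
      rcases mul_eq_zero.1 h3 with h | h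
      · exact Or.inl h
      · exact Or.inr (by linarith)
    obtain ⟨j, hj⟩ : ∃ j, l j = 1 := by
      by_contra hno
      have : ∀ j, l j = 0 := fun j => (h01 j).resolve_right fun h => hno ⟨j, h⟩
      rw [Finset.sum_congr rfl fun j _ => this j] at hl1
      simp at hl1
    have hothers : ∀ i, i ≠ j → l i = 0 := by
      intro i hij
      have h2 : l i + l j ≤ 1 := by
        rw [← hl1, ← Finset.sum_pair hij]
        exact Finset.sum_le_sum_of_subset_of_nonneg (Finset.subset_univ _) fun k _ _ => hl0 k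
      linarith [hl0 i]
    rw [Finset.sum_eq_single j (fun i _ hij => by rw [hothers i hij, zero_smul])
      (fun h => absurd (Finset.mem_univ j) h), hj, one_smul] at hlv
    exact h1 j hlv
  have hSM := SM_posDef hK
  have hstrict : ∀ ξ : Fin n → ℝ, ξ ≠ 0 →
      (ξ ⬝ᵥ (fun i => ((n : ℝ) + 1) * cen K i)) ^ 2 <
        ((n : ℝ) + 1) * ((n : ℝ) + 1 - 1) * (ξ ⬝ᵥ (SM K).mulVec ξ) := by
    intro ξ hξ
    obtain ⟨m1, m2⟩ := simplex_moments hv ξ
    have hpos : 0 < ξ ⬝ᵥ (SM K).mulVec ξ := by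
      have := hSM.dotProduct_mulVec_pos hξ
      rwa [star_trivial] at this
    rw [m1]
    rw [← hKdef] at m2
    rw [m2] at hpos ⊢
    set z : Fin (n + 1) → ℝ := fun j => ξ ⬝ᵥ v j with hz
    have hzpos : 0 < ∑ j, z j ^ 2 := by
      have : 0 ≤ 1 / ((n : ℝ) + 1) * (∑ j, z j) ^ 2 := by positivity
      linarith
    have hlz : ∑ j, l j * z j = 0 := by
      have h2 : ξ ⬝ᵥ (∑ j, l j • v j) = 0 := by rw [hlv, dotProduct_zero]
      rw [dotProduct_sum] at h2
      rw [← h2]
      refine Finset.sum_congr rfl fun j _ => ?_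
      rw [dotProduct_smul, smul_eq_mul]
    have hcs := Finset.sum_mul_sq_le_sq_mul_sq Finset.univ (fun j => 1 - l j) z
    have e1 : ∑ j, (1 - l j) * z j = ∑ j, z j := by
      simp only [sub_mul, one_mul, Finset.sum_sub_distrib, hlz, sub_zero]
    have e2 : ∑ j, (1 - l j) ^ 2 = (n : ℝ) - 1 + ∑ j, l j ^ 2 := by
      have e : ∀ j, (1 - l j) ^ 2 = 1 - 2 * l j + l j ^ 2 := fun j => by ring
      simp only [e, Finset.sum_add_distrib, Finset.sum_sub_distrib, ← Finset.mul_sum, hl1,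
        Finset.sum_const, Finset.card_univ, Fintype.card_fin, nsmul_eq_mul]
      push_cast
      ring
    rw [e1, e2] at hcs
    have h3 : (∑ j, z j) ^ 2 < n * ∑ j, z j ^ 2 := by
      refine hcs.trans_lt ?_
      exact mul_lt_mul_of_pos_right (by linarith) hzpos
    have e3 : ((n : ℝ) + 1) * ((n : ℝ) + 1 - 1) *
        (∑ j, z j ^ 2 - 1 / ((n : ℝ) + 1) * (∑ j, z j) ^ 2) =
        ((n : ℝ) + 1) * n * (∑ j, z j ^ 2) - n * (∑ j, z j) ^ 2 := by
      have hn1 : (n : ℝ) + 1 ≠ 0 := by positivity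
      field_simp
      ring
    rw [e3]
    nlinarith [h3]
  have hdet := det_compare_strict (SM K) hSM (fun i => ((n : ℝ) + 1) * cen K i) ((n : ℝ) + 1)
    (by linarith) hstrict
  rw [← GM_eq] at hdet
  have hV := convBody_vol_pos hK
  have hf : (0 : ℝ) < (n.factorial : ℝ) := by exact_mod_cast Nat.factorial_pos n
  rw [← simplex_rat hn hKs]
  unfold Gam Rat
  exact div_lt_div_of_pos_right hdet (by positivity)

end Vale.Agent.P254U
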